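import Vale.Agent.P281.H165.L.Mean

/-!
# P281, project T-L (helper165): the gradient estimate
-/

open Set Filter Metric MeasureTheory
open scoped Topology ContDiff

noncomputable section

namespace Vale.Agent.P281.H165.L

variable {d : ℕ} {r R : ℝ}

theorem hasCompactSupport_kn {n : ℕ} (hn : n ≠ 0) (hR : 0 ≤ R) :
    HasCompactSupport (kn (d := d) n R) :=
  (isCompact_Bq hR).of_isClosed_subset (isClosed_tsupport _) (tsupport_kn hn R)

theorem nq_zero : nq (0 : Fin d → ℂ) = 0 := by simp [nq]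

theorem mass_pos {n : ℕ} (hn : n ≠ 0) (hR : 0 < R) : 0 < ∫ x : Fin d → ℂ, kn n R x := by
  refine (continuous_kn n R).integral_pos_of_hasCompactSupport_nonneg_nonzero
    (hasCompactSupport_kn hn hR.le) (fun x => kn_nonneg n R x) (x := 0) ?_
  have h1 : kn n R (0 : Fin d → ℂ) = (R ^ 2) ^ n := by
    rw [kn, nq_zero, sub_zero, ps, max_eq_left (sq_nonneg R)]
  rw [h1]
  positivity

theorem nq_add_le (x y : Fin d → ℂ) : nq (x + y) ≤ 2 * nq x + 2 * nq y := by
  unfold nq
  rw [Finset.mul_sum, Finset.mul_sum, ← Finset.sum_add_distrib]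
  refine Finset.sum_le_sum fun j _ => ?_
  simp only [Pi.add_apply, Complex.add_re, Complex.add_im]
  nlinarith [sq_nonneg ((x j).re - (y j).re), sq_nonneg ((x j).im - (y j).im)]

/-- the radius of the small ball -/
def rho (d : ℕ) (R : ℝ) : ℝ := R / (4 * (d + 1))

theorem rho_pos (hR : 0 < R) : 0 < rho d R := by
  unfold rho
  positivity

theorem rho_le (hR : 0 < R) : rho d R ≤ R / 4 := by
  unfold rho
  have h0 : (0 : ℝ) ≤ d := Nat.cast_nonneg d
  exact div_le_div_of_nonneg_left hR.le (by norm_num) (by linarith)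

theorem kn_lower (hR : 0 < R) {c x : Fin d → ℂ} (hc : ‖c‖ ≤ rho d R) (hx : x ∈ Bq d (R / 4)) :
    R ^ 4 / 4 ≤ kn 2 R (c + x) := by
  have h0 : (0 : ℝ) ≤ d := Nat.cast_nonneg d
  have h1 : nq c ≤ R ^ 2 / 16 := by
    refine (nq_le c).trans ?_
    have h2 : ‖c‖ ^ 2 ≤ rho d R ^ 2 := pow_le_pow_left₀ (norm_nonneg _) hc 2
    have h3 : (d : ℝ) * rho d R ^ 2 ≤ R ^ 2 / 16 := by
      unfold rho
      rw [div_pow, mul_pow, ← mul_div_assoc, div_le_div_iff₀ (by positivity) (by norm_num)]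
      have h4 : (d : ℝ) ≤ (d + 1) ^ 2 := by nlinarith
      nlinarith [sq_nonneg R, mul_le_mul_of_nonneg_left h4 (sq_nonneg R)]
    exact (mul_le_mul_of_nonneg_left h2 h0).trans h3
  have h2 : nq x ≤ (R / 4) ^ 2 := hx
  have h3 := nq_add_le c x
  have h4 : R ^ 2 / 2 ≤ R ^ 2 - nq (c + x) := by nlinarith
  have h5 : R ^ 2 / 2 ≤ max (R ^ 2 - nq (c + x)) 0 := h4.trans (le_max_left _ _)
  have h6 : (R ^ 2 / 2) ^ 2 ≤ (max (R ^ 2 - nq (c + x)) 0) ^ 2 :=
    pow_le_pow_left₀ (by positivity) h5 2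
  calc R ^ 4 / 4 = (R ^ 2 / 2) ^ 2 := by ring
    _ ≤ kn 2 R (c + x) := h6

theorem grad_j (d : ℕ) (hR : 0 < R) (hRr : R < r) : ∃ C : ℝ, 0 ≤ C ∧
    ∀ g : (Fin d → ℂ) → ℂ, AnalyticOnNhd ℂ g (ball 0 r) → ∀ c : Fin d → ℂ, ‖c‖ ≤ rho d R →
      ∀ j, ‖fderiv ℂ g c (ej j)‖ ≤ C * ∫ x, kn 2 R x * |(g x).re| := by
  set q : ℝ := R / 4 with hq
  have hq0 : 0 < q := by positivity
  set M : ℝ := ∫ x : Fin d → ℂ, kn 2 q x with hM
  have hM0 : 0 < M := mass_pos (by norm_num) hq0
  refine ⟨(8 * q ^ 3 * (4 / R ^ 4)) / M, by positivity, ?_⟩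
  intro g hg c hc j
  have hρ := rho_le (d := d) hR
  -- the translated function
  set gc : (Fin d → ℂ) → ℂ := fun x => g (c + x) with hgc
  have hmem : ∀ x ∈ ball (0 : Fin d → ℂ) (r - q), c + x ∈ ball (0 : Fin d → ℂ) r := by
    intro x hx
    rw [mem_ball_zero_iff] at hx ⊢
    have h1 := norm_add_le c x
    linarith
  have hgca : AnalyticOnNhd ℂ gc (ball 0 (r - q)) := fun x hx =>
    (hg _ (hmem x hx)).fun_comp (by fun_prop)
  have hqr : q < r - q := by linarith
  set G : (Fin d → ℂ) → ℂ := fun y => fderiv ℂ gc y (ej j) with hG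
  have hGa : AnalyticOnNhd ℂ G (ball 0 (r - q)) := fun y hy =>
    ((ContinuousLinearMap.apply ℂ ℂ (ej j)).analyticAt _).comp (hgca y hy).fderiv
  have hG0 : G 0 = fderiv ℂ g c (ej j) := by
    show fderiv ℂ (fun x => g (c + x)) 0 (ej j) = _
    rw [fderiv_comp_add_left, add_zero]
  have hBb : ∀ x ∈ Bq d q, x ∈ ball (0 : Fin d → ℂ) (r - q) := fun x hx =>
    closedBall_subset_ball hqr (Bq_subset hq0.le hx)
  have hGc : ContinuousOn G (Bq d q) := hGa.continuousOn.mono hBb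
  -- the mean value property
  have h1 := mean_zero hq0.le hqr hGa zero_le_one le_rfl
  simp only [one_smul, smul_sub] at h1
  rw [integral_sub (integrable_kn (by norm_num) hq0.le hGc)
    (integrable_kn (by norm_num) hq0.le continuousOn_const), integral_smul_const] at h1
  have h2 : (M : ℂ) * G 0 = ∫ x, kn 2 q x • G x := by
    rw [← Complex.real_smul]
    exact (sub_eq_zero.1 h1).symm
  -- integration by parts
  let Q' : (Fin d → ℂ) → (Fin d → ℂ) →L[ℝ] ℂ := fun x =>
    Complex.ofRealCLM.comp (Complex.reCLM.comp ((fderiv ℂ gc x).restrictScalars ℝ))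
  have hQ : ∀ x ∈ Bq d q, HasFDerivAt (fun x => ((gc x).re : ℂ)) (Q' x) x := by
    intro x hx
    have h3 := ((hgca x (hBb x hx)).differentiableAt.hasFDerivAt).restrictScalars ℝ
    exact (Complex.ofRealCLM.hasFDerivAt).comp x ((Complex.reCLM.hasFDerivAt).comp x h3)
  have hc' : ∀ e, ContinuousOn (fun x => Q' x e) (Bq d q) := by
    intro e
    have h3 : ContinuousOn (fun y => fderiv ℂ gc y e) (ball 0 (r - q)) := fun y hy =>
      ((((ContinuousLinearMap.apply ℂ ℂ e).analyticAt _).comp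
        (hgca y hy).fderiv).continuousAt).continuousWithinAt
    exact (Complex.continuous_ofReal.comp Complex.continuous_re).comp_continuousOn (h3.mono hBb)
  have h3 := ibp (n := 0) hq0.le hQ hc' (ej j)
  have h4 := ibp (n := 0) hq0.le hQ hc' (Complex.I • ej j)
  have e2 : kn (d := d) (0 + 2) q = kn 2 q := rfl
  have e1 : kn (d := d) (0 + 1) q = kn 1 q := rfl
  simp only [nqD_ej, nqD_Iej, e1, e2] at h3 h4
  have h5 : ∫ x, kn 2 q x • G x = (∫ x, kn 2 q x • Q' x (ej j)) -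
      Complex.I * ∫ x, kn 2 q x • Q' x (Complex.I • ej j) := by
    rw [← integral_const_mul, ← integral_sub (integrable_kn (by norm_num) hq0.le (hc' _))
      ((integrable_kn (by norm_num) hq0.le (hc' _)).const_mul _)]
    refine integral_congr_ae (Eventually.of_forall fun x => ?_)
    have h6 : Q' x (ej j) = ((G x).re : ℂ) := rfl
    have h7 : Q' x (Complex.I • ej j) = -((G x).im : ℂ) := by
      show (((fderiv ℂ gc x) (Complex.I • ej j)).re : ℂ) = _
      rw [map_smul]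
      show ((Complex.I • G x).re : ℂ) = _
      simp
    show kn 2 q x • G x = kn 2 q x • Q' x (ej j) -
      Complex.I * (kn 2 q x • Q' x (Complex.I • ej j))
    rw [h6, h7]
    conv_lhs => rw [← Complex.re_add_im (G x)]
    simp only [Complex.real_smul]
    ring
  -- the estimates
  have hint : Integrable fun x => kn 2 R x * |(g x).re| := by
    have h6 : ContinuousOn (fun x => |(g x).re|) (Bq d R) := by
      refine (Complex.continuous_re.comp_continuousOn (hg.continuousOn.mono ?_)).abs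
      exact fun x hx => closedBall_subset_ball hRr (Bq_subset hR.le hx)
    exact integrable_kn (by norm_num) hR.le h6
  have hint' : Integrable fun x => kn 2 R (c + x) * |(gc x).re| := hint.comp_add_left c
  have key : ∀ (a : (Fin d → ℂ) → ℝ), (∀ x ∈ Bq d q, |a x| ≤ q) →
      ‖∫ x, (((0 : ℕ) + 2) * kn 1 q x * (2 * a x)) • ((gc x).re : ℂ)‖ ≤
        4 * q ^ 3 * (4 / R ^ 4) * ∫ x, kn 2 R x * |(g x).re| := by
    intro a ha
    have h6 : ∫ x, kn 2 R (c + x) * |(gc x).re| = ∫ x, kn 2 R x * |(g x).re| :=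
      integral_add_left_eq_self (fun x => kn 2 R x * |(g x).re|) c
    rw [← h6, ← integral_const_mul]
    refine norm_integral_le_of_norm_le (hint'.const_mul _) (Eventually.of_forall fun x => ?_)
    by_cases hx : x ∈ Bq d q
    · have h7 := kn_lower hR hc hx
      have h8 := kn_le 1 q x
      have h9 := kn_nonneg 1 q x
      have h10 := ha x hx
      rw [norm_smul, Complex.norm_real, Real.norm_eq_abs, Real.norm_eq_abs]
      have h11 : |((0 : ℕ) + 2) * kn 1 q x * (2 * a x)| ≤ 4 * q ^ 3 := by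
        rw [abs_mul, abs_mul, abs_mul, abs_of_nonneg h9]
        have h12 : |(((0 : ℕ) : ℝ) + 2)| = 2 := by norm_num
        have h13 : |(2 : ℝ)| = 2 := by norm_num
        rw [h12, h13]
        have h14 : kn 1 q x * |a x| ≤ q ^ 2 * q := by
          refine mul_le_mul ?_ h10 (abs_nonneg _) (sq_nonneg q)
          simpa using h8
        calc 2 * kn 1 q x * (2 * |a x|) = 4 * (kn 1 q x * |a x|) := by ring
          _ ≤ 4 * (q ^ 2 * q) := by linarith
          _ = 4 * q ^ 3 := by ring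
      have h12 : 1 ≤ 4 / R ^ 4 * kn 2 R (c + x) := by
        rw [div_mul_eq_mul_div, le_div_iff₀ (by positivity)]
        linarith
      calc |((0 : ℕ) + 2) * kn 1 q x * (2 * a x)| * |(gc x).re|
          ≤ 4 * q ^ 3 * |(gc x).re| := mul_le_mul_of_nonneg_right h11 (abs_nonneg _)
        _ = 4 * q ^ 3 * (1 * |(gc x).re|) := by rw [one_mul]
        _ ≤ 4 * q ^ 3 * (4 / R ^ 4 * kn 2 R (c + x) * |(gc x).re|) := by
            refine mul_le_mul_of_nonneg_left ?_ (by positivity)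
            exact mul_le_mul_of_nonneg_right h12 (abs_nonneg _)
        _ = _ := by ring
    · rw [kn_zero (by norm_num) hx, mul_zero, zero_mul, zero_smul, norm_zero]
      have h7 := kn_nonneg 2 R (c + x)
      positivity
  have hre : ∀ x ∈ Bq d q, |(x j).re| ≤ q := fun x hx =>
    (Complex.abs_re_le_norm _).trans (le_of_sq_le_sq ((norm_sq_le_nq x j).trans hx) hq0.le)
  have him : ∀ x ∈ Bq d q, |(x j).im| ≤ q := fun x hx =>
    (Complex.abs_im_le_norm _).trans (le_of_sq_le_sq ((norm_sq_le_nq x j).trans hx) hq0.le)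
  have h6 : ‖(M : ℂ) * G 0‖ ≤ 8 * q ^ 3 * (4 / R ^ 4) * ∫ x, kn 2 R x * |(g x).re| := by
    rw [h2, h5, h3, h4]
    refine (norm_sub_le _ _).trans ?_
    rw [norm_mul, Complex.norm_I, one_mul]
    have h7 := key (fun x => (x j).re) hre
    have h8 := key (fun x => (x j).im) him
    linarith
  rw [norm_mul, Complex.norm_real, Real.norm_eq_abs, abs_of_pos hM0, hG0] at h6
  rw [div_mul_eq_mul_div, le_div_iff₀ hM0]
  linarith

theorem norm_fderiv_le {g : (Fin d → ℂ) → ℂ} {c : Fin d → ℂ} {B : ℝ}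
    (hB : ∀ j, ‖fderiv ℂ g c (ej j)‖ ≤ B) (hB0 : 0 ≤ B) : ‖fderiv ℂ g c‖ ≤ d * B := by
  refine ContinuousLinearMap.opNorm_le_bound _ (by positivity) fun x => ?_
  rw [fderiv_eq_sum]
  refine (norm_sum_le _ _).trans ?_
  have h1 : ∀ j ∈ (Finset.univ : Finset (Fin d)), ‖x j * fderiv ℂ g c (ej j)‖ ≤ B * ‖x‖ := by
    intro j _
    rw [norm_mul, mul_comm]
    exact mul_le_mul (hB j) (norm_le_pi_norm x j) (norm_nonneg _) hB0
  refine (Finset.sum_le_card_nsmul _ _ _ h1).trans ?_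
  rw [Finset.card_univ, Fintype.card_fin, nsmul_eq_mul, mul_assoc]

/-- **The gradient estimate.** -/
theorem grad (d : ℕ) (hR : 0 < R) (hRr : R < r) : ∃ C : ℝ, 0 ≤ C ∧
    ∀ g : (Fin d → ℂ) → ℂ, AnalyticOnNhd ℂ g (ball 0 r) → ∀ c : Fin d → ℂ, ‖c‖ ≤ rho d R →
      ‖fderiv ℂ g c‖ ≤ C * ∫ x, kn 2 R x * |(g x).re| := by
  obtain ⟨C, hC0, hC⟩ := grad_j d hR hRr
  refine ⟨d * C, by positivity, fun g hg c hc => ?_⟩
  have h0 : 0 ≤ ∫ x, kn 2 R x * |(g x).re| :=
    integral_nonneg fun x => mul_nonneg (kn_nonneg _ _ _) (abs_nonneg _)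
  have h1 := norm_fderiv_le (hC g hg c hc) (mul_nonneg hC0 h0)
  rwa [← mul_assoc] at h1

end Vale.Agent.P281.H165.L
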