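import Mathlib

/-!
# P281, project T-L (helper165): the radial kernels on `ℂ^d` and integration by parts
-/

open Set Filter Metric MeasureTheory
open scoped Topology ContDiff

noncomputable section

namespace Vale.Agent.P281.H165.L

variable {d : ℕ}

/-- `t₊ ^ n`. -/
def ps (n : ℕ) (t : ℝ) : ℝ := (max t 0) ^ n

theorem ps_nonneg (n : ℕ) (t : ℝ) : 0 ≤ ps n t := pow_nonneg (le_max_right _ _) _

theorem continuous_ps (n : ℕ) : Continuous (ps n) := by
  unfold ps
  fun_prop

theorem ps_of_nonpos {n : ℕ} (hn : n ≠ 0) {t : ℝ} (ht : t ≤ 0) : ps n t = 0 := by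
  rw [ps, max_eq_right ht, zero_pow hn]

theorem hasDerivAt_ps (n : ℕ) (t : ℝ) : HasDerivAt (ps (n + 2)) ((n + 2) * ps (n + 1) t) t := by
  rcases lt_trichotomy t 0 with ht | ht | ht
  · rw [ps_of_nonpos (Nat.succ_ne_zero n) ht.le, mul_zero]
    refine (hasDerivAt_const t (0 : ℝ)).congr_of_eventuallyEq ?_
    filter_upwards [Iio_mem_nhds ht] with s hs
    exact ps_of_nonpos (by omega) (le_of_lt hs)
  · subst ht
    rw [ps_of_nonpos (Nat.succ_ne_zero n) le_rfl, mul_zero]
    have h0 : ps (n + 2) 0 = 0 := ps_of_nonpos (by omega) le_rfl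
    have h1 : HasDerivAt (fun s : ℝ => s * (s ^ n * max s 0)) (0 ^ n * max 0 0) 0 := by
      rw [hasDerivAt_iff_tendsto_slope]
      have h2 : Tendsto (fun s : ℝ => s ^ n * max s 0) (𝓝[≠] 0) (𝓝 (0 ^ n * max 0 0)) := by
        have h3 : Continuous fun s : ℝ => s ^ n * max s 0 := by fun_prop
        exact (h3.tendsto 0).mono_left nhdsWithin_le_nhds
      refine h2.congr' ?_
      filter_upwards [self_mem_nhdsWithin] with s hs
      have hs0 : s ≠ 0 := hs
      rw [slope_def_field]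
      field_simp
      ring
    rw [max_self, mul_zero] at h1
    refine h1.congr_of_eventuallyEq (Eventually.of_forall fun s => ?_)
    rcases le_total s 0 with hs | hs
    · rw [ps_of_nonpos (by omega) hs]
      show (0 : ℝ) = s * (s ^ n * max s 0)
      rw [max_eq_right hs]
      ring
    · show (max s 0) ^ (n + 2) = s * (s ^ n * max s 0)
      rw [max_eq_left hs]
      ring
  · have h1 : HasDerivAt (fun s : ℝ => s ^ (n + 2)) (((n + 2 : ℕ) : ℝ) * t ^ (n + 2 - 1)) t :=
      hasDerivAt_pow (n + 2) t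
    have h2 : ps (n + 1) t = t ^ (n + 1) := by rw [ps, max_eq_left ht.le]
    rw [h2]
    have h3 : ((n + 2 : ℕ) : ℝ) * t ^ (n + 2 - 1) = (n + 2) * t ^ (n + 1) := by
      push_cast
      rfl
    rw [h3] at h1
    refine h1.congr_of_eventuallyEq ?_
    filter_upwards [Ioi_mem_nhds ht] with s hs
    rw [ps, max_eq_left (le_of_lt hs)]

/-- the real coordinates -/
def reL (j : Fin d) : (Fin d → ℂ) →L[ℝ] ℝ :=
  Complex.reCLM.comp (ContinuousLinearMap.proj (R := ℝ) (φ := fun _ : Fin d => ℂ) j)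

def imL (j : Fin d) : (Fin d → ℂ) →L[ℝ] ℝ :=
  Complex.imCLM.comp (ContinuousLinearMap.proj (R := ℝ) (φ := fun _ : Fin d => ℂ) j)

@[simp] theorem reL_apply (j : Fin d) (x : Fin d → ℂ) : reL j x = (x j).re := rfl
@[simp] theorem imL_apply (j : Fin d) (x : Fin d → ℂ) : imL j x = (x j).im := rfl

/-- the sum of the squares of the real coordinates -/
def nq (x : Fin d → ℂ) : ℝ := ∑ j, ((x j).re ^ 2 + (x j).im ^ 2)

/-- its derivative -/
def nqD (x : Fin d → ℂ) : (Fin d → ℂ) →L[ℝ] ℝ :=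
  ∑ j, ((2 * (x j).re) • reL j + (2 * (x j).im) • imL j)

theorem hasFDerivAt_nq (x : Fin d → ℂ) : HasFDerivAt nq (nqD x) x := by
  unfold nq nqD
  refine HasFDerivAt.fun_sum fun j _ => ?_
  have h1 := (reL j).hasFDerivAt (x := x)
  have h2 := (imL j).hasFDerivAt (x := x)
  have h3 := (h1.pow 2).add (h2.pow 2)
  refine h3.congr_fderiv ?_
  ext y
  simp

theorem continuous_nq : Continuous (nq : (Fin d → ℂ) → ℝ) := by
  unfold nq
  fun_prop

theorem nq_nonneg (x : Fin d → ℂ) : 0 ≤ nq x :=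
  Finset.sum_nonneg fun _ _ => by positivity

theorem norm_sq_le_nq (x : Fin d → ℂ) (j : Fin d) : ‖x j‖ ^ 2 ≤ nq x := by
  rw [← Complex.normSq_eq_norm_sq, Complex.normSq_apply]
  have h1 : (x j).re ^ 2 + (x j).im ^ 2 ≤ nq x :=
    Finset.single_le_sum (f := fun j => (x j).re ^ 2 + (x j).im ^ 2)
      (fun _ _ => by positivity) (Finset.mem_univ j)
  nlinarith

theorem nq_le (x : Fin d → ℂ) : nq x ≤ d * ‖x‖ ^ 2 := by
  unfold nq
  have h1 : ∀ j ∈ (Finset.univ : Finset (Fin d)), (x j).re ^ 2 + (x j).im ^ 2 ≤ ‖x‖ ^ 2 := by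
    intro j _
    have h2 := norm_le_pi_norm x j
    have h3 : (x j).re ^ 2 + (x j).im ^ 2 = ‖x j‖ ^ 2 := by
      rw [← Complex.normSq_eq_norm_sq, Complex.normSq_apply]
      ring
    rw [h3]
    exact pow_le_pow_left₀ (norm_nonneg _) h2 2
  refine (Finset.sum_le_card_nsmul _ _ _ h1).trans ?_
  rw [Finset.card_univ, Fintype.card_fin, nsmul_eq_mul]

/-- the closed Euclidean ball -/
def Bq (d : ℕ) (R : ℝ) : Set (Fin d → ℂ) := {x | nq x ≤ R ^ 2}

theorem Bq_subset {R : ℝ} (hR : 0 ≤ R) : Bq d R ⊆ closedBall 0 R := by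
  intro x hx
  rw [mem_closedBall_zero_iff]
  refine (pi_norm_le_iff_of_nonneg hR).2 fun j => ?_
  have h1 := (norm_sq_le_nq x j).trans hx
  exact le_of_sq_le_sq h1 hR

theorem isClosed_Bq (R : ℝ) : IsClosed (Bq d R) := isClosed_le continuous_nq continuous_const

theorem isCompact_Bq {R : ℝ} (hR : 0 ≤ R) : IsCompact (Bq d R) :=
  (isCompact_closedBall (0 : Fin d → ℂ) R).of_isClosed_subset (isClosed_Bq R) (Bq_subset hR)

theorem Bq_smul {R s : ℝ} (hs : 0 ≤ s) (hs1 : s ≤ 1) {x : Fin d → ℂ} (hx : x ∈ Bq d R) :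
    s • x ∈ Bq d R := by
  have h1 : nq (s • x) = s ^ 2 * nq x := by
    unfold nq
    rw [Finset.mul_sum]
    refine Finset.sum_congr rfl fun j _ => ?_
    simp
    ring
  show nq (s • x) ≤ R ^ 2
  rw [h1]
  have h2 : s ^ 2 ≤ 1 := by nlinarith
  have h3 : nq x ≤ R ^ 2 := hx
  nlinarith [nq_nonneg x]

/-- the kernel `(R² - |x|²)₊ ^ n` -/
def kn (n : ℕ) (R : ℝ) (x : Fin d → ℂ) : ℝ := ps n (R ^ 2 - nq x)

theorem kn_nonneg (n : ℕ) (R : ℝ) (x : Fin d → ℂ) : 0 ≤ kn n R x := ps_nonneg _ _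

theorem continuous_kn (n : ℕ) (R : ℝ) : Continuous (kn (d := d) n R) :=
  (continuous_ps n).comp (continuous_const.sub continuous_nq)

theorem kn_le (n : ℕ) (R : ℝ) (x : Fin d → ℂ) : kn n R x ≤ (R ^ 2) ^ n := by
  refine pow_le_pow_left₀ (le_max_right _ _) (max_le ?_ (sq_nonneg R)) n
  linarith [nq_nonneg x]

theorem kn_zero {n : ℕ} (hn : n ≠ 0) {R : ℝ} {x : Fin d → ℂ} (hx : x ∉ Bq d R) : kn n R x = 0 := by
  refine ps_of_nonpos hn ?_
  have h1 : ¬ nq x ≤ R ^ 2 := hx
  linarith [not_le.1 h1]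

theorem tsupport_kn {n : ℕ} (hn : n ≠ 0) (R : ℝ) : tsupport (kn (d := d) n R) ⊆ Bq d R :=
  closure_minimal (fun x hx => by
    by_contra h
    exact hx (kn_zero hn h)) (isClosed_Bq R)

theorem hasFDerivAt_kn (n : ℕ) (R : ℝ) (x : Fin d → ℂ) :
    HasFDerivAt (kn (n + 2) R) (-((n + 2) * kn (n + 1) R x) • nqD x) x := by
  have h1 : HasFDerivAt (fun x : Fin d → ℂ => R ^ 2 - nq x) (-nqD x) x :=
    (hasFDerivAt_nq x).const_sub (R ^ 2)
  have h2 := (hasDerivAt_ps n (R ^ 2 - nq x)).comp_hasFDerivAt x h1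
  refine h2.congr_fderiv ?_
  ext y
  simp [kn]

/-- the coordinate vector -/
def ej (j : Fin d) : Fin d → ℂ := Pi.single j 1

theorem nqD_ej (x : Fin d → ℂ) (j : Fin d) : nqD x (ej j) = 2 * (x j).re := by
  unfold nqD ej
  rw [sum_apply, Finset.sum_eq_single j]
  · simp
  · intro i _ hij
    simp [hij]
  · intro h
    exact absurd (Finset.mem_univ j) h

theorem nqD_Iej (x : Fin d → ℂ) (j : Fin d) : nqD x (Complex.I • ej j) = 2 * (x j).im := by
  unfold nqD ej
  rw [sum_apply, Finset.sum_eq_single j]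
  · simp
  · intro i _ hij
    simp [hij]
  · intro h
    exact absurd (Finset.mem_univ j) h

/-- Integrability of the products with the kernels. -/
theorem integrable_kn {E : Type*} [NormedAddCommGroup E] [NormedSpace ℝ E] {n : ℕ} (hn : n ≠ 0)
    {R : ℝ} (hR : 0 ≤ R) {Q : (Fin d → ℂ) → E} (hQ : ContinuousOn Q (Bq d R)) :
    Integrable fun x => kn n R x • Q x := by
  have h1 : ContinuousOn (fun x => kn n R x • Q x) (Bq d R) :=
    (continuous_kn n R).continuousOn.smul hQ
  have h2 := h1.integrableOn_compact (μ := volume) (isCompact_Bq hR)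
  refine (integrableOn_iff_integrable_of_support_subset ?_).1 h2
  intro x hx
  by_contra h
  exact hx (by simp only [kn_zero hn h, zero_smul])

theorem ibp {n : ℕ} {R : ℝ} (hR : 0 ≤ R) {Q : (Fin d → ℂ) → ℂ}
    {Q' : (Fin d → ℂ) → (Fin d → ℂ) →L[ℝ] ℂ} (hQ : ∀ x ∈ Bq d R, HasFDerivAt Q (Q' x) x)
    (hc : ∀ e, ContinuousOn (fun x => Q' x e) (Bq d R)) (e : Fin d → ℂ) :
    ∫ x, kn (n + 2) R x • Q' x e = ∫ x, (((n + 2) * kn (n + 1) R x) * nqD x e) • Q x := by
  have hQc : ContinuousOn Q (Bq d R) := fun x hx => (hQ x hx).continuousAt.continuousWithinAt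
  have hnc : Continuous fun x : Fin d → ℂ => nqD x e := by
    unfold nqD
    simp only [sum_apply, add_apply,
      smul_apply, reL_apply, imL_apply, smul_eq_mul]
    fun_prop
  have h0 := integral_bilinear_hasFDerivAt_right_eq_neg_left_of_integrable (μ := volume)
    (f := kn (d := d) (n + 2) R) (f' := fun x => -((n + 2) * kn (n + 1) R x) • nqD x) (g := Q)
    (g' := Q') (v := e) (B := ContinuousLinearMap.lsmul ℝ ℝ) ?_ ?_ ?_
    (fun x _ => hasFDerivAt_kn n R x) (fun x hx => hQ x (tsupport_kn (by omega) R hx))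
  · simp only [ContinuousLinearMap.lsmul_apply] at h0
    rw [h0, ← integral_neg]
    refine integral_congr_ae (Eventually.of_forall fun x => ?_)
    simp only [smul_apply, smul_eq_mul]
    rw [← neg_smul]
    congr 1
    ring
  · have h1 : ContinuousOn (fun x => ((-(n + 2) : ℝ) * nqD x e) • Q x) (Bq d R) :=
      ((continuous_const.mul hnc).continuousOn).smul hQc
    refine (integrable_kn (n := n + 1) (by omega) hR h1).congr (Eventually.of_forall fun x => ?_)
    simp only [ContinuousLinearMap.lsmul_apply, smul_apply, smul_eq_mul,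
      smul_smul]
    congr 1
    ring
  · have h1 : ContinuousOn (fun x => Q' x e) (Bq d R) := hc _
    exact integrable_kn (by omega) hR h1
  · exact integrable_kn (by omega) hR hQc

/-- The integration by parts in the complex direction `j`:
`∫ (R² - |x|²)₊² x_j Q = (1/6) ∫ (R² - |x|²)₊³ (∂_x + i ∂_y) Q`. -/
theorem ibp_j {R : ℝ} (hR : 0 ≤ R) {Q : (Fin d → ℂ) → ℂ}
    {Q' : (Fin d → ℂ) → (Fin d → ℂ) →L[ℝ] ℂ} (hQ : ∀ x ∈ Bq d R, HasFDerivAt Q (Q' x) x)
    (hc : ∀ e, ContinuousOn (fun x => Q' x e) (Bq d R)) (j : Fin d) :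
    ∫ x, kn 2 R x • (x j * Q x) =
      (6 : ℝ)⁻¹ • ∫ x, kn 3 R x • (Q' x (ej j) + Complex.I * Q' x (Complex.I • ej j)) := by
  have hQc : ContinuousOn Q (Bq d R) := fun x hx => (hQ x hx).continuousAt.continuousWithinAt
  have h1 := ibp (n := 1) hR hQ hc (ej j)
  have h2 := ibp (n := 1) hR hQ hc (Complex.I • ej j)
  simp only [nqD_ej, nqD_Iej] at h1 h2
  have h3 : ContinuousOn (fun x => Q' x (ej j)) (Bq d R) := hc _
  have h4 : ContinuousOn (fun x => Complex.I * Q' x (Complex.I • ej j)) (Bq d R) :=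
    continuousOn_const.mul (hc _)
  have h5 : ∫ x, kn 3 R x • (Q' x (ej j) + Complex.I * Q' x (Complex.I • ej j)) =
      (∫ x, kn 3 R x • Q' x (ej j)) + Complex.I * ∫ x, kn 3 R x • Q' x (Complex.I • ej j) := by
    simp only [smul_add]
    rw [integral_add (integrable_kn (by norm_num) hR h3) (integrable_kn (by norm_num) hR h4),
      ← integral_const_mul]
    congr 1
    refine integral_congr_ae (Eventually.of_forall fun x => ?_)
    simp only [mul_smul_comm]
  have h6 : ∀ (a : (Fin d → ℂ) → ℝ), Continuous a →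
      Integrable fun x => (((1 : ℕ) + 2) * kn (1 + 1) R x * (2 * a x)) • Q x := by
    intro a ha
    have h7 : ContinuousOn (fun x => (3 * (2 * a x)) • Q x) (Bq d R) := by
      have h8 : Continuous fun x => 3 * (2 * a x) := by fun_prop
      exact h8.continuousOn.smul hQc
    refine (integrable_kn (n := 2) (by norm_num) hR h7).congr (Eventually.of_forall fun x => ?_)
    show kn 2 R x • ((3 * (2 * a x)) • Q x) = (((1 : ℕ) + 2) * kn (1 + 1) R x * (2 * a x)) • Q x
    rw [smul_smul]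
    congr 1
    push_cast
    ring
  have e1 : kn (d := d) (1 + 2) R = kn 3 R := rfl
  rw [e1] at h1 h2
  rw [h5, h1, h2, ← integral_const_mul, ← integral_add (h6 (fun x => (x j).re) (by fun_prop)),
    ← integral_smul]
  · refine integral_congr_ae (Eventually.of_forall fun x => ?_)
    have h8 : kn (1 + 1) R x = kn 2 R x := rfl
    simp only [h8]
    have h9 : x j = ((x j).re : ℂ) + ((x j).im : ℂ) * Complex.I := (Complex.re_add_im _).symm
    simp only [Complex.real_smul]
    conv_lhs => rw [h9]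
    push_cast
    ring
  · refine ((h6 (fun x => (x j).im) (by fun_prop)).const_mul Complex.I).congr
      (Eventually.of_forall fun x => ?_)
    rfl

end Vale.Agent.P281.H165.L
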