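import Mathlib

/-!
# P281, project T-L (helper165): logarithms on balls
-/

open Set Filter Metric
open scoped Topology ContDiff

noncomputable section

namespace Vale.Agent.P281.H165.L

variable {V : Type*} [NormedAddCommGroup V] [NormedSpace ℂ V]

theorem exists_loc_log {h : V → ℂ} {z : V} (hh : AnalyticAt ℂ h z) (h0 : h z ≠ 0) :
    ∃ l : V → ℂ, AnalyticAt ℂ l z ∧ ∀ᶠ w in 𝓝 z, Complex.exp (l w) = h w := by
  refine ⟨fun w => Complex.log (h w / h z) + Complex.log (h z),
    ((hh.fun_div analyticAt_const h0).clog (by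
      show h z / h z ∈ Complex.slitPlane
      rw [div_self h0]
      exact Complex.one_mem_slitPlane)).fun_add analyticAt_const, ?_⟩
  filter_upwards [hh.continuousAt.eventually_ne h0] with w hw
  rw [Complex.exp_add, Complex.exp_log (div_ne_zero hw h0), Complex.exp_log h0, div_mul_cancel₀ _ h0]

/-- A holomorphic function without zeros on a ball has a logarithm. -/
theorem exists_log_ball {U : V → ℂ} {v₀ : V} {r : ℝ} (hr : 0 < r)
    (hU : AnalyticOnNhd ℂ U (ball v₀ r)) (h0 : ∀ v ∈ ball v₀ r, U v ≠ 0) :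
    ∃ g : V → ℂ, DifferentiableOn ℂ g (ball v₀ r) ∧ ∀ v ∈ ball v₀ r, Complex.exp (g v) = U v := by
  choose! l hl hle using fun v (hv : v ∈ ball v₀ r) => exists_loc_log (hU v hv) (h0 v hv)
  set om : V → (V →L[ℂ] ℂ) := fun v => (U v)⁻¹ • fderiv ℂ U v with hom
  have hev : ∀ v ∈ ball v₀ r, om =ᶠ[𝓝 v] fderiv ℂ (l v) := by
    intro v hv
    filter_upwards [eventually_eventually_nhds.2 (hle v hv), (hl v hv).eventually_analyticAt]
      with w h1 h2
    have h3 : HasFDerivAt (fun w => Complex.exp (l v w))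
        (Complex.exp (l v w) • fderiv ℂ (l v) w) w := h2.differentiableAt.hasFDerivAt.cexp
    have h4 : (fun w => Complex.exp (l v w)) =ᶠ[𝓝 w] U := h1
    show (U w)⁻¹ • fderiv ℂ U w = fderiv ℂ (l v) w
    rw [← h4.fderiv_eq, h3.fderiv, ← h4.self_of_nhds, smul_smul,
      inv_mul_cancel₀ (Complex.exp_ne_zero _), one_smul]
  have hfd : ∀ v ∈ ball v₀ r, HasFDerivAt om (fderiv ℂ (fderiv ℂ (l v)) v) v := by
    intro v hv
    exact ((hl v hv).fderiv.differentiableAt.hasFDerivAt).congr_of_eventuallyEq (hev v hv)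
  have hsym : ∀ a ∈ ball v₀ r, ∀ x ∈ tangentConeAt ℝ (ball v₀ r) a,
      ∀ y ∈ tangentConeAt ℝ (ball v₀ r) a,
      (fderiv ℂ (fderiv ℂ (l a)) a).restrictScalars ℝ x y =
        (fderiv ℂ (fderiv ℂ (l a)) a).restrictScalars ℝ y x := by
    intro a ha x _ y _
    have h1 : IsSymmSndFDerivAt ℂ (l a) a :=
      ((hl a ha).contDiffAt (n := ω)).isSymmSndFDerivAt (by simp)
    exact h1.eq x y
  obtain ⟨g₀, hg₀⟩ := Convex.exists_forall_hasFDerivWithinAt_of_hasFDerivWithinAt_symmetric
    (𝕜 := ℂ) (F := ℂ) (convex_ball v₀ r)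
    (fun v hv => ((hfd v hv).restrictScalars ℝ).hasFDerivWithinAt) hsym
  have hg : ∀ v ∈ ball v₀ r, HasFDerivAt g₀ (om v) v := fun v hv =>
    (hg₀ v hv).hasFDerivAt (isOpen_ball.mem_nhds hv)
  have hm0 : v₀ ∈ ball v₀ r := mem_ball_self hr
  have hder : ∀ v ∈ ball v₀ r, HasFDerivAt (fun v => U v * Complex.exp (-g₀ v))
      (0 : V →L[ℂ] ℂ) v := by
    intro v hv
    have h1 := (hU v hv).differentiableAt.hasFDerivAt
    have h2 : HasFDerivAt (fun v => Complex.exp (-g₀ v)) (Complex.exp (-g₀ v) • -om v) v :=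
      (hg v hv).neg.cexp
    refine (h1.mul h2).congr_fderiv ?_
    ext x
    simp only [hom, add_apply, smul_apply, neg_apply, smul_eq_mul, zero_apply]
    have h3 := h0 v hv
    field_simp
    ring
  have hconst : ∀ v ∈ ball v₀ r, U v * Complex.exp (-g₀ v) = U v₀ * Complex.exp (-g₀ v₀) := by
    intro v hv
    exact (convex_ball v₀ r).is_const_of_fderivWithin_eq_zero (𝕜 := ℂ)
      (f := fun v => U v * Complex.exp (-g₀ v))
      (fun z hz => (hder z hz).differentiableAt.differentiableWithinAt)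
      (fun z hz => by
        rw [fderivWithin_of_isOpen isOpen_ball hz]
        exact (hder z hz).fderiv) hv hm0
  set c := U v₀ * Complex.exp (-g₀ v₀) with hc
  have hc0 : c ≠ 0 := mul_ne_zero (h0 v₀ hm0) (Complex.exp_ne_zero _)
  refine ⟨fun v => g₀ v + Complex.log c, fun v hv =>
    ((hg v hv).differentiableAt.add_const _).differentiableWithinAt, fun v hv => ?_⟩
  rw [Complex.exp_add, Complex.exp_log hc0, ← hconst v hv, mul_comm, mul_assoc,
    ← Complex.exp_add, neg_add_cancel, Complex.exp_zero, mul_one]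

end Vale.Agent.P281.H165.L
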