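import Vale.Agent.P281.H165.L.Step

/-!
# P281, project T-L (helper165): comparison of the means at two radii
-/

open Set Filter Metric MeasureTheory
open scoped Topology ContDiff

noncomputable section

namespace Vale.Agent.P281.H165.L

variable {d : ℕ} {r R : ℝ}

theorem swap {a b : ℝ} (ha : 0 ≤ a) (hab : a ≤ b) (hb : b ≤ 1) (hR : 0 ≤ R)
    {f f' : ℝ → (Fin d → ℂ) → ℂ}
    (hf : ∀ x ∈ Bq d R, ∀ s ∈ Icc (0 : ℝ) 1, HasDerivAt (fun s => f s x) (f' s x) s)
    (hc : ContinuousOn (fun p : ℝ × (Fin d → ℂ) => f' p.1 p.2) (Icc 0 1 ×ˢ Bq d R)) :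
    ∫ x, kn 2 R x • (f b x - f a x) = ∫ s in a..b, ∫ x, kn 2 R x • f' s x := by
  have hsub : uIoc a b ⊆ Icc (0 : ℝ) 1 := by
    rw [uIoc_of_le hab]
    exact fun s hs => ⟨ha.trans hs.1.le, hs.2.trans hb⟩
  have hsub' : uIcc a b ⊆ Icc (0 : ℝ) 1 := by
    rw [uIcc_of_le hab]
    exact fun s hs => ⟨ha.trans hs.1, hs.2.trans hb⟩
  have h1 : ContinuousOn (fun p : ℝ × (Fin d → ℂ) => kn 2 R p.2 • f' p.1 p.2)
      (Icc 0 1 ×ˢ Bq d R) :=
    ((continuous_kn 2 R).comp continuous_snd).continuousOn.smul hc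
  have h2 : IntegrableOn (fun p : ℝ × (Fin d → ℂ) => kn 2 R p.2 • f' p.1 p.2)
      (uIoc a b ×ˢ Bq d R) (volume.prod volume) :=
    (h1.integrableOn_compact (isCompact_Icc.prod (isCompact_Bq hR))).mono_set
      (prod_mono_left hsub)
  have h3 : IntegrableOn (fun p : ℝ × (Fin d → ℂ) => kn 2 R p.2 • f' p.1 p.2)
      (uIoc a b ×ˢ univ) (volume.prod volume) := by
    refine h2.of_forall_sdiff_eq_zero (measurableSet_uIoc.prod MeasurableSet.univ) ?_
    rintro ⟨s, x⟩ ⟨⟨h4, -⟩, h5⟩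
    have h6 : x ∉ Bq d R := fun h => h5 ⟨h4, h⟩
    show kn 2 R x • f' s x = 0
    rw [kn_zero (by norm_num) h6, zero_smul]
  have h4 : Integrable (Function.uncurry fun (s : ℝ) (x : Fin d → ℂ) => kn 2 R x • f' s x)
      ((volume.restrict (uIoc a b)).prod volume) := by
    have h5 : (volume.restrict (uIoc a b)).prod (volume : Measure (Fin d → ℂ)) =
        (volume.prod volume).restrict (uIoc a b ×ˢ univ) := by
      rw [← Measure.prod_restrict, Measure.restrict_univ]
    rw [h5]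
    exact h3
  rw [intervalIntegral_integral_swap h4]
  refine integral_congr_ae (Eventually.of_forall fun x => ?_)
  show kn 2 R x • (f b x - f a x) = ∫ s in a..b, kn 2 R x • f' s x
  rw [intervalIntegral.integral_smul]
  by_cases hx : x ∈ Bq d R
  · congr 1
    refine (intervalIntegral.integral_eq_sub_of_hasDerivAt (fun s hs => hf x hx s (hsub' hs))
      ?_).symm
    have h6 : ContinuousOn (fun s => f' s x) (Icc 0 1) :=
      hc.comp (by fun_prop : Continuous fun s : ℝ => (s, x)).continuousOn fun s hs => ⟨hs, hx⟩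
    exact (h6.mono hsub').intervalIntegrable
  · rw [kn_zero (by norm_num) hx, zero_smul, zero_smul]

theorem hasDerivAt_line (hR : 0 ≤ R) (hRr : R < r) {g : (Fin d → ℂ) → ℂ}
    (hg : AnalyticOnNhd ℂ g (ball 0 r)) {x : Fin d → ℂ} (hx : x ∈ Bq d R) {s : ℝ}
    (hs : s ∈ Icc (0 : ℝ) 1) : HasDerivAt (fun s : ℝ => g (s • x)) (fderiv ℂ g (s • x) x) s := by
  have h1 := ((hg _ (smul_mem hR hRr hs.1 hs.2 hx)).differentiableAt.hasFDerivAt).restrictScalars ℝ
  have h2 : HasDerivAt (fun s : ℝ => s • x) x s := by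
    simpa using (hasDerivAt_id s).smul_const x
  exact h1.comp_hasDerivAt s h2

theorem continuousOn_fd (hR : 0 ≤ R) (hRr : R < r) {g : (Fin d → ℂ) → ℂ}
    (hg : AnalyticOnNhd ℂ g (ball 0 r)) :
    ContinuousOn (fun p : ℝ × (Fin d → ℂ) => fderiv ℂ g (p.1 • p.2) p.2)
      (Icc 0 1 ×ˢ Bq d R) := by
  have h1 : ContinuousOn (fderiv ℂ g) (ball 0 r) := fun y hy =>
    (hg y hy).fderiv.continuousAt.continuousWithinAt
  exact (continuousOn_smul' hR hRr h1).clm_apply continuous_snd.continuousOn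

/-- **The mean value property.** -/
theorem mean_zero (hR : 0 ≤ R) (hRr : R < r) {g : (Fin d → ℂ) → ℂ}
    (hg : AnalyticOnNhd ℂ g (ball 0 r)) {b : ℝ} (hb0 : 0 ≤ b) (hb : b ≤ 1) :
    ∫ x, kn 2 R x • (g (b • x) - g 0) = 0 := by
  have h1 := swap (f := fun s x => g (s • x)) (f' := fun s x => fderiv ℂ g (s • x) x) le_rfl hb0 hb
    hR (fun x hx s hs => hasDerivAt_line hR hRr hg hx hs) (continuousOn_fd hR hRr hg)
  simp only [zero_smul] at h1
  rw [h1]
  have h2 : ∀ s ∈ uIcc 0 b, ∫ x, kn 2 R x • fderiv ℂ g (s • x) x = 0 := by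
    intro s hs
    rw [uIcc_of_le hb0] at hs
    have h3 := step (P := fun _ => 1) (P' := fun _ => 0) hR hRr hg (fun t => hasDerivAt_const t 1)
      continuous_const hs.1 (hs.2.trans hb)
    simp only [Complex.ofReal_one, one_mul, zero_mul, mul_zero, integral_zero,
      Complex.ofReal_zero] at h3
    exact h3
  rw [intervalIntegral.integral_congr h2]
  simp

/-- **The comparison of the means** of `F(Re g)` at the radii `a ≤ b`. -/
theorem mean_diff (hR : 0 ≤ R) (hRr : R < r) {g : (Fin d → ℂ) → ℂ}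
    (hg : AnalyticOnNhd ℂ g (ball 0 r)) {F P P' : ℝ → ℝ} (hF : ∀ t, HasDerivAt F (P t) t)
    (hP : ∀ t, HasDerivAt P (P' t) t) (hP' : Continuous P') {a b : ℝ} (ha : 0 ≤ a) (hab : a ≤ b)
    (hb : b ≤ 1) :
    ∫ x, kn 2 R x * (F (g (b • x)).re - F (g (a • x)).re) =
      ∫ s in a..b, s / 6 * ∫ x, kn 3 R x * (P' (g (s • x)).re *
        ∑ j, ‖fderiv ℂ g (s • x) (ej j)‖ ^ 2) := by
  have hPc : Continuous P := continuous_iff_continuousAt.2 fun t => (hP t).continuousAt
  have hre : ContinuousOn (fun p : ℝ × (Fin d → ℂ) => (g (p.1 • p.2)).re) (Icc 0 1 ×ˢ Bq d R) :=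
    Complex.continuous_re.comp_continuousOn (continuousOn_smul' hR hRr hg.continuousOn)
  have h1 := swap (f := fun s x => ((F (g (s • x)).re : ℝ) : ℂ))
    (f' := fun s x => ((P (g (s • x)).re * (fderiv ℂ g (s • x) x).re : ℝ) : ℂ)) ha hab hb
    hR (fun x hx s hs => by
      have h2 := hasDerivAt_line hR hRr hg hx hs
      have h3 : HasDerivAt (fun s : ℝ => (g (s • x)).re) (fderiv ℂ g (s • x) x).re s :=
        (Complex.reCLM.hasFDerivAt).comp_hasDerivAt s h2
      have h4 := (hF _).comp s h3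
      exact h4.ofReal_comp)
    (by
      refine Complex.continuous_ofReal.comp_continuousOn ?_
      exact (hPc.comp_continuousOn hre).mul
        (Complex.continuous_re.comp_continuousOn (continuousOn_fd hR hRr hg)))
  have h5 : (((∫ x, kn 2 R x * (F (g (b • x)).re - F (g (a • x)).re) : ℝ)) : ℂ) =
      ((∫ s in a..b, s / 6 * ∫ x, kn 3 R x * (P' (g (s • x)).re *
        ∑ j, ‖fderiv ℂ g (s • x) (ej j)‖ ^ 2) : ℝ) : ℂ) := by
    rw [← integral_complex_ofReal, ← intervalIntegral.integral_ofReal]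
    have h6 : ∫ x, ((kn 2 R x * (F (g (b • x)).re - F (g (a • x)).re) : ℝ) : ℂ) =
        ∫ x, kn 2 R x • (((F (g (b • x)).re : ℝ) : ℂ) - ((F (g (a • x)).re : ℝ) : ℂ)) := by
      refine integral_congr_ae (Eventually.of_forall fun x => ?_)
      simp only [Complex.real_smul]
      push_cast
      ring
    rw [h6, h1]
    refine intervalIntegral.integral_congr fun s hs => ?_
    rw [uIcc_of_le hab] at hs
    have hs0 : 0 ≤ s := ha.trans hs.1
    have hs1 : s ≤ 1 := hs.2.trans hb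
    have h7 := step hR hRr hg hP hP' hs0 hs1
    have h8 := congrArg Complex.re h7
    rw [Complex.ofReal_re] at h8
    show ∫ x, kn 2 R x • ((P (g (s • x)).re * (fderiv ℂ g (s • x) x).re : ℝ) : ℂ) = _
    have h9 : ∫ x, kn 2 R x • ((P (g (s • x)).re * (fderiv ℂ g (s • x) x).re : ℝ) : ℂ) =
        ((∫ x, kn 2 R x * (P (g (s • x)).re * (fderiv ℂ g (s • x) x).re) : ℝ) : ℂ) := by
      rw [← integral_complex_ofReal]
      refine integral_congr_ae (Eventually.of_forall fun x => ?_)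
      simp only [Complex.real_smul]
      push_cast
      ring
    rw [h9]
    congr 1
    have h10 : Integrable fun x => kn 2 R x • ((P (g (s • x)).re : ℂ) *
        fderiv ℂ g (s • x) x) := by
      refine integrable_kn (by norm_num) hR ?_
      have e1 : ContinuousOn (fun x : Fin d → ℂ => (s, x)) (Bq d R) := by fun_prop
      have e2 : MapsTo (fun x : Fin d → ℂ => (s, x)) (Bq d R) (Icc 0 1 ×ˢ Bq d R) :=
        fun x hx => ⟨⟨hs0, hs1⟩, hx⟩
      exact (Complex.continuous_ofReal.comp_continuousOn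
        (hPc.comp_continuousOn (hre.comp e1 e2))).mul ((continuousOn_fd hR hRr hg).comp e1 e2)
    have h11 : (∫ x, kn 2 R x • ((P (g (s • x)).re : ℂ) * fderiv ℂ g (s • x) x)).re =
        ∫ x, kn 2 R x * (P (g (s • x)).re * (fderiv ℂ g (s • x) x).re) := by
      have h12 := (Complex.reCLM.integral_comp_comm h10).symm
      have h13 : (∫ x, kn 2 R x • ((P (g (s • x)).re : ℂ) * fderiv ℂ g (s • x) x)).re =
        ∫ x, Complex.reCLM (kn 2 R x • ((P (g (s • x)).re : ℂ) * fderiv ℂ g (s • x) x)) := h12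
      rw [h13]
      refine integral_congr_ae (Eventually.of_forall fun x => ?_)
      simp
    rw [← h11, h8]
  exact_mod_cast h5

end Vale.Agent.P281.H165.L
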