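import Vale.Agent.P281.H165.L.Slice
import Vale.Agent.P281.H165.L.Log
import Vale.Agent.P281.H485.U.Grad
import Vale.Agent.P281.H969.TL.Spec

/-!
# P281, project T-L (helper165), block B34: logarithmic derivatives on tame slices
-/

open Set Filter Metric MeasureTheory Matrix
open scoped Topology ContDiff ComplexConjugate ComplexOrder ENNReal NNReal

noncomputable section

namespace Vale.Agent.P281.H165.L

open Vale.Agent.P281.H64.TK Vale.Agent.P272.K Vale.Agent.P281.H864.K Vale.Agent.P281.H485.K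
open Vale.Agent.P281.H485.U
open Vale.Agent.P281.H64.TU (TameIn)
open Vale.Agent.P281.H969.TL (IsPair enD volS EnStmt SliceStmt SheetBoundStmt)

variable {d : ℕ}

theorem sliceStmt : SliceStmt := fun d _ hr => slice_log d hr

/-- The energy densities in terms of `g = log u`. -/
theorem weight_eq {a b : ℂ} : ‖Complex.exp b‖ ^ 2 * ‖Complex.exp a‖ ^ 2 /
      (‖Complex.exp a‖ ^ 2 + ‖Complex.exp b‖ ^ 2) ^ 2 = 4⁻¹ / Real.cosh (a - b).re ^ 2 := by
  rw [Complex.norm_exp, Complex.norm_exp, Complex.sub_re, Real.cosh_eq]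
  set x := a.re
  set y := b.re
  have h1 : Real.exp (x - y) = Real.exp x / Real.exp y := Real.exp_sub x y
  have h2 : Real.exp (-(x - y)) = Real.exp y / Real.exp x := by
    rw [neg_sub, Real.exp_sub]
  rw [h1, h2]
  have h3 := Real.exp_pos x
  have h4 := Real.exp_pos y
  field_simp
  ring

section
variable {E Γ : Type} [TopologicalSpace E] [Group Γ] [MulAction Γ E] [ContinuousConstSMul Γ E]
  {S : Sheets d E Γ}

omit [ContinuousConstSMul Γ E] in
theorem pair_loc {w : Fin S.N → Cm d → Matrix (Fin d) (Fin d) ℂ} {C : ℝ} {Z : Set E} {u : E → ℂ}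
    {A M : E → ℝ} (hP : IsPair S w C Z u A M) {q : Cm d → E} {v : Cm d} (hvZ : q v ∉ Z)
    {i : Fin S.N} {z : Cm d} (hz : z ∈ ball (0 : Cm d) 3) {γ : Γ} {θ : Cm d → Cm d}
    (h1 : AnalyticAt ℂ θ v) (h2 : θ v = z) (h3 : ∀ᶠ u in 𝓝 v, q u = γ • S.σ i (θ u)) :
    S.σ i z ∉ Z ∧ u (q v) = u (S.σ i z) ∧ HasFDerivAt (fun x => u (q x))
      ((fderiv ℂ (fun z => u (S.σ i z)) z).comp (fderiv ℂ θ v)) v ∧
      AnalyticAt ℂ (fun x => u (q x)) v := by
  have h4 : q v = γ • S.σ i z := by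
    have := h3.self_of_nhds
    rwa [h2] at this
  have hz' : S.σ i z ∉ Z := fun h => hvZ (by
    rw [h4]
    exact ((hP.inv γ (S.σ i z)).2.2.2).2 h)
  have ha := (hP.hol i z hz hz').1
  have h5 : (fun x => u (q x)) =ᶠ[𝓝 v] fun x => u (S.σ i (θ x)) := by
    filter_upwards [h3] with x hx
    rw [hx, (hP.inv γ _).1]
  refine ⟨hz', ?_, ?_, ?_⟩
  · rw [h4, (hP.inv γ _).1]
  · have h6 : HasFDerivAt (fun z => u (S.σ i z)) (fderiv ℂ (fun z => u (S.σ i z)) z) (θ v) := by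
      rw [h2]
      exact ha.differentiableAt.hasFDerivAt
    exact (HasFDerivAt.comp v h6 h1.differentiableAt.hasFDerivAt).congr_of_eventuallyEq h5
  · have h6 : AnalyticAt ℂ (fun z => u (S.σ i z)) (θ v) := by
      rw [h2]
      exact ha
    exact (h6.fun_comp h1).congr h5.symm

/-- The energy of a slice. -/
theorem lint_log {w : Fin S.N → Cm d → Matrix (Fin d) (Fin d) ℂ} (hw : Kah S w) {C : ℝ}
    {Z : Set E} {u : E → ℂ} {A M : E → ℝ} (hP : IsPair S w C Z u A M) (hd' : 0 < d) {K : ℝ}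
    (hK : 0 < K) {q : Cm d → E} {v₀ : Cm d} {r : ℝ} (hr : 0 < r) (hq : PolyIn S q v₀ r)
    (ht : TameIn S w K q v₀ r) (hqZ : ∀ v ∈ ball v₀ r, q v ∉ Z) {g : Cm d → ℂ}
    (hg : DifferentiableOn ℂ g (ball v₀ r)) (hge : ∀ v ∈ ball v₀ r, Complex.exp (g v) = u (q v)) :
    ∫⁻ v in ball v₀ r, ENNReal.ofReal ((K * d)⁻¹ ^ (d - 1) *
      (∑ k, ‖fderiv ℂ g v (Pi.single k 1)‖ ^ 2) * (4⁻¹ / Real.cosh (g v - g v₀).re ^ 2)) ≤
      ∑ i, ∫⁻ z in S.P i ∩ {z | S.σ i z ∉ Z},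
        ENNReal.ofReal (enD (w i z) (fun z => u (S.σ i z)) ‖u (q v₀)‖ z) := by
  classical
  have hd0 : (0 : ℝ) < d := by exact_mod_cast hd'
  have hm0 : v₀ ∈ ball v₀ r := mem_ball_self hr
  have hmeas : ∀ i, MeasurableSet (S.P i ∩ {z | S.σ i z ∉ Z}) := by
    intro i
    have h1 : S.P i ∩ {z | S.σ i z ∉ Z} = S.P i ∩ {z | z ∈ ball (0 : Cm d) 3 ∧ S.σ i z ∉ Z} := by
      ext z
      constructor
      · rintro ⟨h1, h2⟩
        exact ⟨h1, P_subset3 S i h1, h2⟩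
      · rintro ⟨h1, -, h2⟩
        exact ⟨h1, h2⟩
    rw [h1]
    refine (meas_P S i).inter (IsOpen.measurableSet ?_)
    rw [isOpen_iff_mem_nhds]
    rintro z ⟨hz, hz'⟩
    filter_upwards [isOpen_ball.mem_nhds hz, hP.isOpen i z hz hz'] with z' h2 h3
    exact ⟨h2, h3⟩
  have hrw : ∀ i, ∫⁻ z in S.P i ∩ {z | S.σ i z ∉ Z},
        ENNReal.ofReal (enD (w i z) (fun z => u (S.σ i z)) ‖u (q v₀)‖ z) =
      ∫⁻ z in S.P i, (if S.σ i z ∉ Z then
        ENNReal.ofReal (enD (w i z) (fun z => u (S.σ i z)) ‖u (q v₀)‖ z) else 0) := by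
    intro i
    rw [← lintegral_indicator (hmeas i), ← lintegral_indicator (meas_P S i)]
    refine lintegral_congr fun z => ?_
    by_cases h1 : z ∈ S.P i
    · by_cases h2 : S.σ i z ∉ Z
      · rw [indicator_of_mem (show z ∈ S.P i ∩ {z | S.σ i z ∉ Z} from ⟨h1, h2⟩),
          indicator_of_mem h1, if_pos h2]
      · rw [indicator_of_notMem (fun h => h2 h.2), indicator_of_mem h1, if_neg h2]
    · rw [indicator_of_notMem (fun h => h1 h.1), indicator_of_notMem h1]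
  simp only [hrw]
  refine lint_poly_le hq (fun i z => if S.σ i z ∉ Z then
        ENNReal.ofReal (enD (w i z) (fun z => u (S.σ i z)) ‖u (q v₀)‖ z) else 0) _ ?_
  intro i v hv z hz γ θ h1 h2 h3
  obtain ⟨hz', huq, hfd, -⟩ := pair_loc hP (hqZ v hv) hz h1 h2 h3
  rw [if_pos hz']
  set J := H64.TK.jac θ v with hJ
  have hc : 0 < (K * d)⁻¹ := by positivity
  -- tameness
  have hT : ∀ ξ : Fin d → ℂ, (K * d)⁻¹ * ∑ k, ‖ξ k‖ ^ 2 ≤
      (star ξ ⬝ᵥ ((J.transpose * w i z * J.map conj) *ᵥ ξ)).re := by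
    intro ξ
    have h4 := ht v hv i z hz γ θ h1 h2 h3 (star ξ)
    simp only [fderiv_jac] at h4
    rw [← hJ, form_eq] at h4
    simp only [star_star] at h4
    have h5 := sum_sq_le (star ξ : Cm d)
    have h6 : ∀ k, ‖(star ξ : Fin d → ℂ) k‖ = ‖ξ k‖ := fun k => by
      rw [Pi.star_apply, norm_star]
    simp only [h6] at h5
    calc (K * d)⁻¹ * ∑ k, ‖ξ k‖ ^ 2 ≤ (K * d)⁻¹ * (d * ‖(star ξ : Cm d)‖ ^ 2) := by gcongr
      _ = K⁻¹ * ‖(star ξ : Cm d)‖ ^ 2 := by field_simp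
      _ ≤ K⁻¹ * (K * (star ξ ⬝ᵥ ((J.transpose * w i z * J.map conj) *ᵥ ξ)).re) := by gcongr
      _ = _ := by field_simp
  -- invertibility
  have hJ0 : J.det ≠ 0 := by
    intro h0
    have h4 : (J.map conj).det = 0 := by
      have : (J.map conj).det = conj J.det := (RingHom.map_det (starRingEnd ℂ) J).symm
      rw [this, h0, map_zero]
    obtain ⟨ξ, hξ, hξ'⟩ := Matrix.exists_mulVec_eq_zero_iff.2 h4
    have h5 := hT ξ
    rw [← Matrix.mulVec_mulVec, hξ', Matrix.mulVec_zero, dotProduct_zero, Complex.zero_re] at h5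
    have h6 : 0 < ∑ k, ‖ξ k‖ ^ 2 := by
      obtain ⟨k, hk⟩ := Function.ne_iff.1 hξ
      refine Finset.sum_pos' (fun k _ => by positivity) ⟨k, Finset.mem_univ _, ?_⟩
      have : 0 < ‖ξ k‖ := norm_pos_iff.2 hk
      positivity
    have h7 := mul_pos hc h6
    linarith
  have hpd : (J.transpose * w i z * J.map conj).PosDef := by
    have h4 := hw.posDef i z hz
    have h5 : (J.map conj)ᴴ = J.transpose := by
      ext a b
      simp [Matrix.conjTranspose_apply]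
    have h6 : Function.Injective (J.map conj).mulVec := by
      rw [Matrix.mulVec_injective_iff_isUnit, Matrix.isUnit_iff_isUnit_det]
      have : (J.map conj).det = conj J.det := (RingHom.map_det (starRingEnd ℂ) J).symm
      rw [this]
      exact isUnit_iff_ne_zero.2 ((map_ne_zero _).2 hJ0)
    have h7 := h4.conjTranspose_mul_mul_same h6
    rwa [h5] at h7
  -- the gradients
  set a : Fin d → ℂ := fun k => dd k (fun z => u (S.σ i z)) z / u (S.σ i z) with ha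
  have hu0 : u (S.σ i z) ≠ 0 := (hP.hol i z hz hz').2
  have hgv : HasFDerivAt g (fderiv ℂ g v) v :=
    (hg.differentiableAt (isOpen_ball.mem_nhds hv)).hasFDerivAt
  have hexp : fderiv ℂ (fun x => u (q x)) v = u (S.σ i z) • fderiv ℂ g v := by
    have h4 : (fun x => Complex.exp (g x)) =ᶠ[𝓝 v] fun x => u (q x) := by
      filter_upwards [isOpen_ball.mem_nhds hv] with x hx
      exact hge x hx
    rw [← h4.fderiv_eq, hgv.cexp.fderiv, hge v hv, huq]
  have hgr : a ᵥ* J = fun k => fderiv ℂ g v (Pi.single k 1) := by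
    ext k
    have h4 : fderiv ℂ g v (Pi.single k 1) =
        fderiv ℂ (fun x => u (q x)) v (Pi.single k 1) / u (S.σ i z) := by
      rw [hexp, _root_.smul_apply, smul_eq_mul, mul_div_cancel_left₀ _ hu0]
    rw [h4, hfd.fderiv, ContinuousLinearMap.comp_apply, clm_eq_sum, Finset.sum_div]
    simp only [Matrix.vecMul, dotProduct, ha, hJ, H64.TK.jac, Matrix.of_apply, dd]
    refine Finset.sum_congr rfl fun j _ => ?_
    ring
  have h8 := hd_ge hpd hc hT (a ᵥ* J)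
  rw [hd_change hJ0, Complex.re_ofReal_mul, hgr] at h8
  have h9 : enD (w i z) (fun z => u (S.σ i z)) ‖u (q v₀)‖ z =
      4⁻¹ / Real.cosh (g v - g v₀).re ^ 2 * (hd (w i z) a a).re := by
    rw [← weight_eq, hge v hv, hge v₀ hm0, huq]
    rfl
  rw [h9, ← ENNReal.ofReal_mul (by positivity)]
  refine ENNReal.ofReal_le_ofReal ?_
  have h10 : 0 ≤ 4⁻¹ / Real.cosh (g v - g v₀).re ^ 2 := by positivity
  calc (K * d)⁻¹ ^ (d - 1) * (∑ k, ‖fderiv ℂ g v (Pi.single k 1)‖ ^ 2) *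
        (4⁻¹ / Real.cosh (g v - g v₀).re ^ 2)
      ≤ ‖J.det‖ ^ 2 * (hd (w i z) a a).re * (4⁻¹ / Real.cosh (g v - g v₀).re ^ 2) :=
        mul_le_mul_of_nonneg_right h8 h10
    _ = _ := by ring

end

/-- **B34** -/
theorem sheetBound (hEn : EnStmt) : SheetBoundStmt := by
  intro d r K C v hd hr hK hC
  have hd0 : (0 : ℝ) < d := by exact_mod_cast hd
  obtain ⟨C₁, hC₁, hS⟩ := slice_log d hr
  set K' : ℝ := 4 * d * (K * d) ^ (d - 1) * (d * C * |v|) with hK'
  have hK'0 : 0 ≤ K' := by positivity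
  refine ⟨C₁ * (K' + 1), ?_⟩
  intro E Γ _ _ _ _ _ _ S w Z u A M hw hP hv q v₀ hq ht hqZ
  have hana : AnalyticOnNhd ℂ (fun x => u (q x)) (ball v₀ r) := by
    intro x hx
    obtain ⟨γ, i, z, hz, he⟩ := S.cover (q x)
    have hz3 : z ∈ ball (0 : Cm d) 3 := by rw [mem_ball_zero_iff]; linarith
    obtain ⟨θ, h1, h2, h3⟩ := hq.hol x hx i z hz3 γ he.symm
    exact (pair_loc hP (hqZ x hx) hz3 h1 h2 h3).2.2.2
  have hne : ∀ x ∈ ball v₀ r, u (q x) ≠ 0 := by
    intro x hx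
    obtain ⟨γ, i, z, hz, he⟩ := S.cover (q x)
    have hz3 : z ∈ ball (0 : Cm d) 3 := by rw [mem_ball_zero_iff]; linarith
    obtain ⟨θ, h1, h2, h3⟩ := hq.hol x hx i z hz3 γ he.symm
    obtain ⟨h4, h5, -, -⟩ := pair_loc hP (hqZ x hx) hz3 h1 h2 h3
    rw [h5]
    exact (hP.hol i z hz3 h4).2
  obtain ⟨g, hg, hge⟩ := exists_log_ball hr hana hne
  have hm0 : v₀ ∈ ball v₀ r := mem_ball_self hr
  have h1 := lint_log hw hP hd hK hr hq ht hqZ hg hge
  have h2 := h1.trans (hEn d E Γ S w C Z u A M hd hC hw hP ‖u (q v₀)‖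
    (norm_pos_iff.2 (hne v₀ hm0)))
  have h3 : d * C * volS S w ≤ d * C * |v| :=
    mul_le_mul_of_nonneg_left (hv.trans (le_abs_self v)) (by positivity)
  have h4 := h2.trans (ENNReal.ofReal_le_ofReal h3)
  have h5 : ∫⁻ x in ball v₀ r, ENNReal.ofReal (‖fderiv ℂ g x‖ ^ 2 /
      Real.cosh (g x - g v₀).re ^ 2) ≤ ENNReal.ofReal K' := by
    have hk0 : 0 ≤ 4 * d * (K * d) ^ (d - 1) := by positivity
    have h6 : ∀ x, ENNReal.ofReal (‖fderiv ℂ g x‖ ^ 2 / Real.cosh (g x - g v₀).re ^ 2) ≤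
        ENNReal.ofReal (4 * d * (K * d) ^ (d - 1)) * ENNReal.ofReal ((K * d)⁻¹ ^ (d - 1) *
          (∑ k, ‖fderiv ℂ g x (Pi.single k 1)‖ ^ 2) * (4⁻¹ / Real.cosh (g x - g v₀).re ^ 2)) := by
      intro x
      rw [← ENNReal.ofReal_mul hk0]
      refine ENNReal.ofReal_le_ofReal ?_
      have h7 : ‖fderiv ℂ g x‖ ^ 2 ≤ d * ∑ k, ‖fderiv ℂ g x (Pi.single k 1)‖ ^ 2 := by
        have h8 : ‖fderiv ℂ g x‖ ≤ ∑ k, ‖fderiv ℂ g x (Pi.single k 1)‖ := by
          refine ContinuousLinearMap.opNorm_le_bound _ (Finset.sum_nonneg fun _ _ =>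
            norm_nonneg _) fun ξ => ?_
          rw [clm_eq_sum, Finset.sum_mul]
          refine (norm_sum_le _ _).trans (Finset.sum_le_sum fun k _ => ?_)
          rw [norm_mul]
          exact mul_le_mul_of_nonneg_left (norm_le_pi_norm ξ k) (norm_nonneg _)
        have h10 : (∑ k, ‖fderiv ℂ g x (Pi.single k 1)‖) ^ 2 ≤
            d * ∑ k, ‖fderiv ℂ g x (Pi.single k 1)‖ ^ 2 := by
          have h11 := sq_sum_le_card_mul_sum_sq (s := (Finset.univ : Finset (Fin d)))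
            (f := fun k => ‖fderiv ℂ g x (Pi.single k 1)‖)
          rwa [Finset.card_univ, Fintype.card_fin] at h11
        exact (pow_le_pow_left₀ (norm_nonneg _) h8 2).trans h10
      have h8 : 0 < Real.cosh (g x - g v₀).re ^ 2 := pow_pos (Real.cosh_pos _) 2
      have h9 : (K * d) ^ (d - 1) * (K * d)⁻¹ ^ (d - 1) = 1 := by
        rw [← mul_pow, mul_inv_cancel₀ (by positivity), one_pow]
      rw [div_le_iff₀ h8]
      calc ‖fderiv ℂ g x‖ ^ 2 ≤ d * ∑ k, ‖fderiv ℂ g x (Pi.single k 1)‖ ^ 2 := h7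
        _ = ((K * d) ^ (d - 1) * (K * d)⁻¹ ^ (d - 1)) *
            (d * ∑ k, ‖fderiv ℂ g x (Pi.single k 1)‖ ^ 2) := by rw [h9, one_mul]
        _ = _ := by
            field_simp
    refine (lintegral_mono fun x => h6 x).trans ?_
    rw [lintegral_const_mul' _ _ ENNReal.ofReal_ne_top, hK', ENNReal.ofReal_mul hk0]
    gcongr
  have h6 := hS g v₀ K' hK'0 hg h5
  have h7 : fderiv ℂ (fun v => u (q v)) v₀ = u (q v₀) • fderiv ℂ g v₀ := by
    have h8 : (fun x => Complex.exp (g x)) =ᶠ[𝓝 v₀] fun x => u (q x) := by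
      filter_upwards [isOpen_ball.mem_nhds hm0] with x hx
      exact hge x hx
    rw [← h8.fderiv_eq, ((hg.differentiableAt (isOpen_ball.mem_nhds hm0)).hasFDerivAt).cexp.fderiv,
      hge v₀ hm0]
  rw [h7, norm_smul, mul_comm]
  exact mul_le_mul_of_nonneg_right h6 (norm_nonneg _)

end Vale.Agent.P281.H165.L
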