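import Vale.Agent.P281.H165.L.Grad
import Vale.Agent.P281.MF.Hol

/-!
# P281, project T-L (helper165): the slice bound for logarithmic differentials

If `g` is holomorphic on a ball and `∫ |dg|² / cosh² (Re g - Re g(v₀))` is bounded, then `|dg(v₀)|`
is bounded. (For `g = log U`, the integrand is four times the spherical energy density of `U`, at the
level `|U(v₀)|`.)
-/

open Set Filter Metric MeasureTheory
open scoped Topology ContDiff Pointwise

noncomputable section

namespace Vale.Agent.P281.H165.L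

variable {d : ℕ} {r R : ℝ}

theorem hasDerivAt_lc (t : ℝ) :
    HasDerivAt (fun t => Real.log (Real.cosh t)) (Real.sinh t / Real.cosh t) t :=
  (Real.hasDerivAt_cosh t).log (Real.cosh_pos t).ne'

theorem hasDerivAt_th (t : ℝ) :
    HasDerivAt (fun t => Real.sinh t / Real.cosh t) (1 / Real.cosh t ^ 2) t := by
  have h1 := (Real.hasDerivAt_sinh t).div (Real.hasDerivAt_cosh t) (Real.cosh_pos t).ne'
  have h2 : (Real.cosh t * Real.cosh t - Real.sinh t * Real.sinh t) / Real.cosh t ^ 2 =
      1 / Real.cosh t ^ 2 := by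
    congr 1
    nlinarith [Real.cosh_sq t]
  rwa [h2] at h1

theorem continuous_ch : Continuous fun t => 1 / Real.cosh t ^ 2 :=
  continuous_const.div (Real.continuous_cosh.pow 2) fun t => (pow_pos (Real.cosh_pos t) 2).ne'

theorem lc_le (t : ℝ) : Real.log (Real.cosh t) ≤ |t| := by
  rw [Real.log_le_iff_le_exp (Real.cosh_pos t), ← Real.cosh_abs, Real.cosh_eq]
  have h1 : Real.exp (-|t|) ≤ Real.exp |t| := Real.exp_le_exp.2 (by linarith [abs_nonneg t])
  linarith

theorem le_lc (t : ℝ) : |t| - Real.log 2 ≤ Real.log (Real.cosh t) := by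
  have h1 : |t| - Real.log 2 = Real.log (Real.exp |t| / 2) := by
    rw [Real.log_div (Real.exp_pos _).ne' two_ne_zero, Real.log_exp]
  rw [h1]
  refine Real.log_le_log (by positivity) ?_
  rw [← Real.cosh_abs, Real.cosh_eq]
  have h2 := Real.exp_pos (-|t|)
  linarith

/-- the energy density -/
def en (g : (Fin d → ℂ) → ℂ) (y : Fin d → ℂ) : ℝ := ‖fderiv ℂ g y‖ ^ 2 / Real.cosh (g y).re ^ 2

theorem en_nonneg (g : (Fin d → ℂ) → ℂ) (y : Fin d → ℂ) : 0 ≤ en g y := by
  unfold en
  positivity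

theorem continuousOn_en {g : (Fin d → ℂ) → ℂ} (hg : AnalyticOnNhd ℂ g (ball 0 r)) :
    ContinuousOn (en g) (ball 0 r) := by
  have h1 : ContinuousOn (fderiv ℂ g) (ball 0 r) := fun y hy =>
    (hg y hy).fderiv.continuousAt.continuousWithinAt
  refine (h1.norm.pow 2).div ((Real.continuous_cosh.comp_continuousOn
    (Complex.continuous_re.comp_continuousOn hg.continuousOn)).pow 2) fun y _ => ?_
  exact (pow_pos (Real.cosh_pos _) 2).ne'

/-- The bound of the energy integral at the radius `s`. -/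
theorem energy_le (hR : 0 < R) (hRr : R < r) {g : (Fin d → ℂ) → ℂ}
    (hg : AnalyticOnNhd ℂ g (ball 0 r)) {K : ℝ} (hK : 0 ≤ K)
    (hE : ∫⁻ v in ball 0 r, ENNReal.ofReal (en g v) ≤ ENNReal.ofReal K) {s l : ℝ} (hl : 0 < l)
    (hls : l ≤ s) (hs1 : s ≤ 1) :
    ∫ x in Bq d R, en g (s • x) ≤ (l ^ Module.finrank ℝ (Fin d → ℂ))⁻¹ * K := by
  have hs : 0 < s := hl.trans_le hls
  rw [Measure.setIntegral_comp_smul_of_pos volume (en g) (Bq d R) hs, smul_eq_mul]
  have hsub : s • Bq d R ⊆ ball (0 : Fin d → ℂ) r := by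
    rintro _ ⟨x, hx, rfl⟩
    exact smul_mem hR.le hRr hs.le hs1 hx
  have h1 : ∫ x in s • Bq d R, en g x ≤ K := by
    have h2 : ∫ x in s • Bq d R, en g x =
        (∫⁻ x in s • Bq d R, ENNReal.ofReal (en g x)).toReal := by
      refine integral_eq_lintegral_of_nonneg_ae (Eventually.of_forall fun x => en_nonneg g x) ?_
      have h3 : IsCompact (s • Bq d R) := (isCompact_Bq hR.le).smul s
      exact ((continuousOn_en hg).mono hsub).aestronglyMeasurable h3.measurableSet
    rw [h2]
    exact ENNReal.toReal_le_of_le_ofReal hK ((lintegral_mono_set hsub).trans hE)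
  have h4 : 0 ≤ ∫ x in s • Bq d R, en g x := integral_nonneg fun x => en_nonneg g x
  refine mul_le_mul ?_ h1 h4 (by positivity)
  exact inv_anti₀ (pow_pos hl _) (pow_le_pow_left₀ hl.le hls _)

/-- The slice bound, normalised: `v₀ = 0`, `Re g(0) = 0`. -/
theorem slice0 (d : ℕ) (hR : 0 < R) (hRr : R < r) : ∃ C : ℝ, 0 ≤ C ∧
    ∀ (g : (Fin d → ℂ) → ℂ) (K : ℝ), 0 ≤ K → AnalyticOnNhd ℂ g (ball 0 r) → g 0 = 0 →
      ∫⁻ v in ball 0 r, ENNReal.ofReal (en g v) ≤ ENNReal.ofReal K →
      ‖fderiv ℂ g 0‖ ≤ C * (K + 1) := by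
  obtain ⟨C, hC0, hC⟩ := grad d hR hRr
  set M : ℝ := ∫ x : Fin d → ℂ, kn 2 R x with hM
  have hM0 : 0 < M := mass_pos (by norm_num) hR
  have hρ := rho_pos (d := d) hR
  set l : ℝ := min (rho d R / R) (1 / (2 * (C * M * R + 1))) with hl
  have hCMR : 0 ≤ C * M * R := by positivity
  have hl0 : 0 < l := lt_min (by positivity) (by positivity)
  have hl1 : l ≤ 1 := by
    refine (min_le_right _ _).trans ?_
    rw [div_le_one (by positivity)]
    linarith
  have hlR : l * R ≤ rho d R := by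
    have h1 := min_le_left (rho d R / R) (1 / (2 * (C * M * R + 1)))
    rw [← hl, le_div_iff₀ hR] at h1
    exact h1
  have hlC : C * M * R * l ≤ 1 / 2 := by
    have h1 := min_le_right (rho d R / R) (1 / (2 * (C * M * R + 1)))
    rw [← hl, le_div_iff₀ (by positivity)] at h1
    nlinarith
  set D : ℝ := (R ^ 2) ^ 3 / 6 * (d * (l ^ Module.finrank ℝ (Fin d → ℂ))⁻¹) with hD
  have hD0 : 0 ≤ D := by positivity
  refine ⟨C * (2 * (Real.log 2 * M + D)), by
    have := Real.log_nonneg (show (1 : ℝ) ≤ 2 by norm_num)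
    positivity, ?_⟩
  intro g K hK hg hg0 hE
  set A : ℝ → ℝ := fun s => ∫ x, kn 2 R x * |(g (s • x)).re| with hA
  have hA0 : ∀ s, 0 ≤ A s := fun s =>
    integral_nonneg fun x => mul_nonneg (kn_nonneg _ _ _) (abs_nonneg _)
  have hA1 : A 1 = ∫ x, kn 2 R x * |(g x).re| := by
    simp only [hA, one_smul]
  have hcre : ∀ s ∈ Icc (0 : ℝ) 1, ContinuousOn (fun x : Fin d → ℂ => (g (s • x)).re) (Bq d R) :=
    fun s hs => Complex.continuous_re.comp_continuousOn
      (continuousOn_smul hR.le hRr hg.continuousOn hs.1 hs.2)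
  -- the small radius
  have hsmall : A l ≤ 1 / 2 * A 1 := by
    have h1 : ∀ x ∈ Bq d R, |(g (l • x)).re| ≤ C * A 1 * (l * R) := by
      intro x hx
      have h2 : ‖l • x‖ ≤ l * R := by
        rw [norm_smul, Real.norm_eq_abs, abs_of_pos hl0]
        exact mul_le_mul_of_nonneg_left (mem_closedBall_zero_iff.1 (Bq_subset hR.le hx)) hl0.le
      have hρr : rho d R < r := lt_of_le_of_lt (rho_le hR) (by linarith)
      have h3 := (convex_closedBall (0 : Fin d → ℂ) (rho d R)).norm_image_sub_le_of_norm_fderiv_le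
        (𝕜 := ℂ) (f := g) (C := C * A 1) (x := 0) (y := l • x)
        (fun y hy => (hg y (closedBall_subset_ball hρr hy)).differentiableAt)
        (fun y hy => by
          rw [hA1]
          exact hC g hg y (mem_closedBall_zero_iff.1 hy))
        (mem_closedBall_self hρ.le) (mem_closedBall_zero_iff.2 (h2.trans hlR))
      rw [hg0, sub_zero, sub_zero] at h3
      refine (Complex.abs_re_le_norm _).trans (h3.trans ?_)
      exact mul_le_mul_of_nonneg_left h2 (mul_nonneg hC0 (hA0 1))
    have h2 : A l ≤ ∫ x : Fin d → ℂ, kn 2 R x * (C * A 1 * (l * R)) := by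
      refine integral_mono_of_nonneg (Eventually.of_forall fun x =>
        mul_nonneg (kn_nonneg _ _ _) (abs_nonneg _)) ?_ (Eventually.of_forall fun x => ?_)
      · exact integrable_kn (by norm_num) hR.le continuousOn_const
      · by_cases hx : x ∈ Bq d R
        · exact mul_le_mul_of_nonneg_left (h1 x hx) (kn_nonneg _ _ _)
        · beta_reduce
          rw [kn_zero (by norm_num) hx, zero_mul, zero_mul]
    rw [integral_mul_const, ← hM] at h2
    have h3 : M * (C * A 1 * (l * R)) = (C * M * R * l) * A 1 := by ring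
    rw [h3] at h2
    exact h2.trans (mul_le_mul_of_nonneg_right hlC (hA0 1))
  -- the comparison
  have hmd := mean_diff hR.le hRr hg hasDerivAt_lc hasDerivAt_th continuous_ch hl0.le hl1 le_rfl
  have hupper : ∫ s in l..1, s / 6 * ∫ x, kn 3 R x * (1 / Real.cosh (g (s • x)).re ^ 2 *
      ∑ j, ‖fderiv ℂ g (s • x) (ej j)‖ ^ 2) ≤ D * K := by
    have h1 : ∀ s ∈ uIoc l 1, ‖s / 6 * ∫ x, kn 3 R x * (1 / Real.cosh (g (s • x)).re ^ 2 *
        ∑ j, ‖fderiv ℂ g (s • x) (ej j)‖ ^ 2)‖ ≤ D * K := by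
      intro s hs
      rw [uIoc_of_le hl1] at hs
      have hs0 : 0 < s := hl0.trans hs.1
      have h2 : 0 ≤ ∫ x, kn 3 R x * (1 / Real.cosh (g (s • x)).re ^ 2 *
          ∑ j, ‖fderiv ℂ g (s • x) (ej j)‖ ^ 2) := by
        refine integral_nonneg fun x => mul_nonneg (kn_nonneg _ _ _) (mul_nonneg ?_ ?_)
        · positivity
        · exact Finset.sum_nonneg fun j _ => by positivity
      rw [Real.norm_eq_abs, abs_of_nonneg (mul_nonneg (by positivity) h2)]
      have h3 : ∫ x, kn 3 R x * (1 / Real.cosh (g (s • x)).re ^ 2 *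
          ∑ j, ‖fderiv ℂ g (s • x) (ej j)‖ ^ 2) ≤
          ∫ x in Bq d R, (R ^ 2) ^ 3 * (d * en g (s • x)) := by
        rw [← integral_indicator (isClosed_Bq R).measurableSet]
        refine integral_mono_of_nonneg (Eventually.of_forall fun x =>
          mul_nonneg (kn_nonneg _ _ _) (mul_nonneg (by positivity)
            (Finset.sum_nonneg fun j _ => by positivity))) ?_ (Eventually.of_forall fun x => ?_)
        · rw [integrable_indicator_iff (isClosed_Bq R).measurableSet]
          refine ContinuousOn.integrableOn_compact (isCompact_Bq hR.le) ?_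
          exact continuousOn_const.mul (continuousOn_const.mul
            ((continuousOn_en hg).comp (continuous_const_smul s).continuousOn
              fun x hx => smul_mem hR.le hRr hs0.le hs.2 hx))
        · by_cases hx : x ∈ Bq d R
          · rw [indicator_of_mem hx]
            refine mul_le_mul (kn_le 3 R x) ?_ ?_ (by positivity)
            · have h4 : ∀ j ∈ (Finset.univ : Finset (Fin d)),
                  ‖fderiv ℂ g (s • x) (ej j)‖ ^ 2 ≤ ‖fderiv ℂ g (s • x)‖ ^ 2 := by
                intro j _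
                have h5 := (fderiv ℂ g (s • x)).le_opNorm (ej j)
                have h6 : ‖ej j‖ = 1 := by
                  rw [ej, Pi.norm_single, norm_one]
                rw [h6, mul_one] at h5
                exact pow_le_pow_left₀ (norm_nonneg _) h5 2
              have h5 := Finset.sum_le_card_nsmul _ _ _ h4
              rw [Finset.card_univ, Fintype.card_fin, nsmul_eq_mul] at h5
              have h6 : 0 ≤ 1 / Real.cosh (g (s • x)).re ^ 2 := by positivity
              refine (mul_le_mul_of_nonneg_left h5 h6).trans (le_of_eq ?_)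
              unfold en
              ring
            · exact mul_nonneg (by positivity) (Finset.sum_nonneg fun j _ => by positivity)
          · rw [indicator_of_notMem hx]
            beta_reduce
            rw [kn_zero (by norm_num) hx, zero_mul]
      have h4 : ∫ x in Bq d R, (R ^ 2) ^ 3 * (d * en g (s • x)) ≤
          (R ^ 2) ^ 3 * (d * ((l ^ Module.finrank ℝ (Fin d → ℂ))⁻¹ * K)) := by
        rw [integral_const_mul, integral_const_mul]
        exact mul_le_mul_of_nonneg_left (mul_le_mul_of_nonneg_left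
          (energy_le hR hRr hg hK hE hl0 hs.1.le hs.2) (Nat.cast_nonneg d)) (by positivity)
      have h5 := h3.trans h4
      have h6 : s / 6 ≤ 1 / 6 := by linarith [hs.2]
      calc s / 6 * ∫ x, kn 3 R x * (1 / Real.cosh (g (s • x)).re ^ 2 *
            ∑ j, ‖fderiv ℂ g (s • x) (ej j)‖ ^ 2)
          ≤ 1 / 6 * ((R ^ 2) ^ 3 * (d * ((l ^ Module.finrank ℝ (Fin d → ℂ))⁻¹ * K))) :=
            mul_le_mul h6 h5 h2 (by norm_num)
        _ = D * K := by
            rw [hD]
            ring
    have h2 := intervalIntegral.norm_integral_le_of_norm_le_const h1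
    rw [Real.norm_eq_abs, abs_of_nonneg (by linarith : (0 : ℝ) ≤ 1 - l)] at h2
    refine (le_abs_self _).trans (h2.trans ?_)
    have h3 : 0 ≤ D * K := mul_nonneg hD0 hK
    nlinarith
  -- the conclusion
  have hlc : Continuous fun t : ℝ => Real.log (Real.cosh t) :=
    continuous_iff_continuousAt.2 fun t => (hasDerivAt_lc t).continuousAt
  have hi : ∀ s ∈ Icc (0 : ℝ) 1, Integrable fun x => kn 2 R x *
      Real.log (Real.cosh (g (s • x)).re) := fun s hs =>
    integrable_kn (by norm_num) hR.le (hlc.comp_continuousOn (hcre s hs))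
  have hia : ∀ s ∈ Icc (0 : ℝ) 1, Integrable fun x => kn 2 R x * |(g (s • x)).re| := fun s hs =>
    integrable_kn (by norm_num) hR.le (hcre s hs).abs
  have hM' : Integrable fun x : Fin d → ℂ => kn 2 R x * Real.log 2 :=
    integrable_kn (by norm_num) hR.le continuousOn_const
  have hlm : l ∈ Icc (0 : ℝ) 1 := ⟨hl0.le, hl1⟩
  have h1m : (1 : ℝ) ∈ Icc (0 : ℝ) 1 := ⟨zero_le_one, le_rfl⟩
  have h1 : (∫ x, kn 2 R x * Real.log (Real.cosh (g ((1 : ℝ) • x)).re)) -
      ∫ x, kn 2 R x * Real.log (Real.cosh (g (l • x)).re) ≤ D * K := by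
    rw [← integral_sub (hi 1 h1m) (hi l hlm)]
    refine le_trans (le_of_eq ?_) (hmd.le.trans hupper)
    refine integral_congr_ae (Eventually.of_forall fun x => ?_)
    show kn 2 R x * _ - kn 2 R x * _ = kn 2 R x * (_ - _)
    ring
  have h2 : ∫ x, kn 2 R x * Real.log (Real.cosh (g (l • x)).re) ≤ A l :=
    integral_mono (hi l hlm) (hia l hlm) fun x =>
      mul_le_mul_of_nonneg_left (lc_le _) (kn_nonneg _ _ _)
  have h3 : A 1 - Real.log 2 * M ≤ ∫ x, kn 2 R x * Real.log (Real.cosh (g ((1 : ℝ) • x)).re) := by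
    have h4 : A 1 - Real.log 2 * M =
        ∫ x, (kn 2 R x * |(g ((1 : ℝ) • x)).re| - kn 2 R x * Real.log 2) := by
      rw [integral_sub (hia 1 h1m) hM', integral_mul_const, mul_comm (Real.log 2)]
    rw [h4]
    refine integral_mono ((hia 1 h1m).sub hM') (hi 1 h1m) fun x => ?_
    beta_reduce
    rw [← mul_sub]
    exact mul_le_mul_of_nonneg_left (le_lc _) (kn_nonneg _ _ _)
  have h4 : A 1 ≤ 2 * (Real.log 2 * M + D * K) := by linarith
  have h5 := hC g hg 0 (by rw [norm_zero]; exact hρ.le)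
  rw [← hA1] at h5
  refine h5.trans ?_
  have hlog : 0 ≤ Real.log 2 := Real.log_nonneg (by norm_num)
  have h6 : 2 * (Real.log 2 * M + D * K) ≤ 2 * (Real.log 2 * M + D) * (K + 1) := by
    have h7 : 0 ≤ Real.log 2 * M := mul_nonneg hlog hM0.le
    nlinarith [mul_nonneg h7 hK]
  calc C * A 1 ≤ C * (2 * (Real.log 2 * M + D) * (K + 1)) :=
        mul_le_mul_of_nonneg_left (h4.trans h6) hC0
    _ = _ := by ring

/-- **The slice bound.** If `∫ |dg|² / cosh² (Re g - Re g(v₀)) ≤ K` on the ball, then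
`|dg(v₀)| ≤ C (K + 1)`. -/
theorem slice_log (d : ℕ) {r : ℝ} (hr : 0 < r) : ∃ C : ℝ, 0 ≤ C ∧
    ∀ (g : (Fin d → ℂ) → ℂ) (v₀ : Fin d → ℂ) (K : ℝ), 0 ≤ K → DifferentiableOn ℂ g (ball v₀ r) →
      ∫⁻ v in ball v₀ r, ENNReal.ofReal
        (‖fderiv ℂ g v‖ ^ 2 / Real.cosh (g v - g v₀).re ^ 2) ≤ ENNReal.ofReal K →
      ‖fderiv ℂ g v₀‖ ≤ C * (K + 1) := by
  obtain ⟨C, hC0, hC⟩ := slice0 (r := r) (R := r / 2) d (by linarith) (by linarith)
  refine ⟨C, hC0, fun g v₀ K hK hg hE => ?_⟩
  have hga := MF.analyticOnNhd_of_differentiableOn isOpen_ball hg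
  set g₁ : (Fin d → ℂ) → ℂ := fun x => g (v₀ + x) - g v₀ with hg₁
  have hmem : ∀ x ∈ ball (0 : Fin d → ℂ) r, v₀ + x ∈ ball v₀ r := by
    intro x hx
    rw [mem_ball_zero_iff] at hx
    rw [mem_ball, dist_eq_norm, add_sub_cancel_left]
    exact hx
  have h1 : AnalyticOnNhd ℂ g₁ (ball 0 r) := fun x hx => by
    refine AnalyticAt.sub ?_ analyticAt_const
    exact (hga _ (hmem x hx)).fun_comp (by fun_prop)
  have h2 : g₁ 0 = 0 := by
    show g (v₀ + 0) - g v₀ = 0
    rw [add_zero, sub_self]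
  have h3 : ∀ x, fderiv ℂ g₁ x = fderiv ℂ g (v₀ + x) := by
    intro x
    show fderiv ℂ (fun x => g (v₀ + x) - g v₀) x = _
    rw [fderiv_sub_const, fderiv_comp_add_left]
  have h4 : ∫⁻ v in ball 0 r, ENNReal.ofReal (en g₁ v) ≤ ENNReal.ofReal K := by
    refine le_trans (le_of_eq ?_) hE
    have h5 : ball (0 : Fin d → ℂ) r = (fun x => v₀ + x) ⁻¹' ball v₀ r := by
      ext x
      simp [mem_ball, dist_eq_norm]
    have h6 := (measurePreserving_add_left (volume : Measure (Fin d → ℂ))
      v₀).setLIntegral_comp_preimage_emb (MeasurableEquiv.addLeft v₀).measurableEmbedding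
      (fun v => ENNReal.ofReal (‖fderiv ℂ g v‖ ^ 2 / Real.cosh (g v - g v₀).re ^ 2)) (ball v₀ r)
    rw [← h6, ← h5]
    refine lintegral_congr fun x => ?_
    simp only [en, h3]
    rfl
  have h5 := hC g₁ K hK h1 h2 h4
  rwa [h3, add_zero] at h5

end Vale.Agent.P281.H165.L
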