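import Vale.Agent.P281.H165.L.Ker

/-!
# P281, project T-L (helper165): the derivative of the radial means of functions of `Re g`
-/

open Set Filter Metric MeasureTheory
open scoped Topology ContDiff

noncomputable section

namespace Vale.Agent.P281.H165.L

variable {d : ℕ}

theorem smul_mem {r R : ℝ} (hR : 0 ≤ R) (hRr : R < r) {s : ℝ} (hs : 0 ≤ s) (hs1 : s ≤ 1)
    {x : Fin d → ℂ} (hx : x ∈ Bq d R) : s • x ∈ ball (0 : Fin d → ℂ) r :=
  closedBall_subset_ball hRr (Bq_subset hR (Bq_smul hs hs1 hx))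

theorem hasFDerivAt_smul {E : Type*} [NormedAddCommGroup E] [NormedSpace ℂ E] {r R : ℝ}
    (hR : 0 ≤ R) (hRr : R < r) {g : (Fin d → ℂ) → E}
    (hg : AnalyticOnNhd ℂ g (ball 0 r)) {s : ℝ} (hs : 0 ≤ s) (hs1 : s ≤ 1) {x : Fin d → ℂ}
    (hx : x ∈ Bq d R) : HasFDerivAt (fun x : Fin d → ℂ => g (s • x))
      (s • (fderiv ℂ g (s • x)).restrictScalars ℝ) x := by
  have h1 := ((hg _ (smul_mem hR hRr hs hs1 hx)).differentiableAt.hasFDerivAt).restrictScalars ℝ
  have h2 : HasFDerivAt (fun x : Fin d → ℂ => s • x)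
      (s • ContinuousLinearMap.id ℝ (Fin d → ℂ)) x := (hasFDerivAt_id x).const_smul s
  have h3 := h1.comp x h2
  refine h3.congr_fderiv ?_
  ext y
  simp

theorem sum_ej (x : Fin d → ℂ) : x = ∑ j, x j • ej j := by
  ext i
  rw [Finset.sum_apply, Finset.sum_eq_single i]
  · simp [ej]
  · intro j _ hji
    simp [ej, Pi.single_eq_of_ne (Ne.symm hji)]
  · intro h
    exact absurd (Finset.mem_univ i) h

theorem fderiv_eq_sum (g : (Fin d → ℂ) → ℂ) (y x : Fin d → ℂ) :
    fderiv ℂ g y x = ∑ j, x j * fderiv ℂ g y (ej j) := by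
  conv_lhs => rw [sum_ej x, map_sum]
  refine Finset.sum_congr rfl fun j _ => ?_
  rw [map_smul, smul_eq_mul]

variable {r R : ℝ} {g : (Fin d → ℂ) → ℂ} {P P' : ℝ → ℝ}

theorem continuousOn_smul' {E : Type*} [NormedAddCommGroup E] [NormedSpace ℂ E] (hR : 0 ≤ R)
    (hRr : R < r) {G : (Fin d → ℂ) → E} (hG : ContinuousOn G (ball 0 r)) :
    ContinuousOn (fun p : ℝ × (Fin d → ℂ) => G (p.1 • p.2)) (Icc 0 1 ×ˢ Bq d R) :=
  hG.comp (continuous_fst.smul continuous_snd).continuousOn fun _ hp =>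
    smul_mem hR hRr hp.1.1 hp.1.2 hp.2

theorem continuousOn_smul (hR : 0 ≤ R) (hRr : R < r) {E : Type*} [NormedAddCommGroup E]
    [NormedSpace ℂ E] {G : (Fin d → ℂ) → E} (hG : ContinuousOn G (ball 0 r)) {s : ℝ}
    (hs : 0 ≤ s) (hs1 : s ≤ 1) : ContinuousOn (fun x => G (s • x)) (Bq d R) :=
  hG.comp (continuous_const_smul s).continuousOn fun _ hx => smul_mem hR hRr hs hs1 hx

theorem step_j (hR : 0 ≤ R) (hRr : R < r) (hg : AnalyticOnNhd ℂ g (ball 0 r))
    (hP : ∀ t, HasDerivAt P (P' t) t) (hP' : Continuous P') {s : ℝ} (hs : 0 ≤ s) (hs1 : s ≤ 1)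
    (j : Fin d) :
    ∫ x, kn 2 R x • (x j * ((P (g (s • x)).re : ℂ) * fderiv ℂ g (s • x) (ej j))) =
      (6 : ℝ)⁻¹ • ∫ x, kn 3 R x •
        ((s * (P' (g (s • x)).re * ‖fderiv ℂ g (s • x) (ej j)‖ ^ 2) : ℝ) : ℂ) := by
  set G : (Fin d → ℂ) → ℂ := fun y => fderiv ℂ g y (ej j) with hGdef
  have hG : AnalyticOnNhd ℂ G (ball 0 r) := fun y hy =>
    ((ContinuousLinearMap.apply ℂ ℂ (ej j)).analyticAt _).comp (hg y hy).fderiv
  have hPc : Continuous P := continuous_iff_continuousAt.2 fun t => (hP t).continuousAt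
  let Q' : (Fin d → ℂ) → (Fin d → ℂ) →L[ℝ] ℂ := fun x =>
    (P (g (s • x)).re : ℂ) • (s • (fderiv ℂ G (s • x)).restrictScalars ℝ) +
      G (s • x) • (Complex.ofRealCLM.comp (P' (g (s • x)).re •
        (Complex.reCLM.comp (s • (fderiv ℂ g (s • x)).restrictScalars ℝ))))
  have hQ : ∀ x ∈ Bq d R, HasFDerivAt (fun x => (P (g (s • x)).re : ℂ) * G (s • x)) (Q' x) x := by
    intro x hx
    have h1 := hasFDerivAt_smul hR hRr hg hs hs1 hx
    have h2 := hasFDerivAt_smul hR hRr hG hs hs1 hx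
    have h3 : HasFDerivAt (fun x : Fin d → ℂ => (g (s • x)).re)
        (Complex.reCLM.comp (s • (fderiv ℂ g (s • x)).restrictScalars ℝ)) x :=
      (Complex.reCLM.hasFDerivAt).comp x h1
    have h4 := (hP _).comp_hasFDerivAt x h3
    have h5 : HasFDerivAt (fun x : Fin d → ℂ => (P (g (s • x)).re : ℂ))
        (Complex.ofRealCLM.comp (P' (g (s • x)).re •
        (Complex.reCLM.comp (s • (fderiv ℂ g (s • x)).restrictScalars ℝ)))) x :=
      (Complex.ofRealCLM.hasFDerivAt).comp x h4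
    exact h5.mul h2
  have hgc := hg.continuousOn
  have hDg : ∀ e, ContinuousOn (fun y => fderiv ℂ g y e) (ball 0 r) := fun e y hy =>
    ((((ContinuousLinearMap.apply ℂ ℂ e).analyticAt _).comp
      (hg y hy).fderiv).continuousAt).continuousWithinAt
  have hDG : ∀ e, ContinuousOn (fun y => fderiv ℂ G y e) (ball 0 r) := fun e y hy =>
    ((((ContinuousLinearMap.apply ℂ ℂ e).analyticAt _).comp
      (hG y hy).fderiv).continuousAt).continuousWithinAt
  have hre : ContinuousOn (fun x : Fin d → ℂ => (g (s • x)).re) (Bq d R) :=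
    Complex.continuous_re.comp_continuousOn (continuousOn_smul hR hRr hgc hs hs1)
  have hQ'e : ∀ x e, Q' x e = (P (g (s • x)).re : ℂ) * (s * fderiv ℂ G (s • x) e) +
      G (s • x) * ((P' (g (s • x)).re * (s * (fderiv ℂ g (s • x) e).re) : ℝ) : ℂ) := by
    intro x e
    simp [Q']
  have hc : ∀ e, ContinuousOn (fun x => Q' x e) (Bq d R) := by
    intro e
    simp only [hQ'e]
    refine ContinuousOn.add ?_ ?_
    · exact (Complex.continuous_ofReal.comp_continuousOn (hPc.comp_continuousOn hre)).mul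
        (continuousOn_const.mul (continuousOn_smul hR hRr (hDG e) hs hs1))
    · refine (continuousOn_smul hR hRr hG.continuousOn hs hs1).mul
        (Complex.continuous_ofReal.comp_continuousOn ?_)
      exact (hP'.comp_continuousOn hre).mul (continuousOn_const.mul
        (Complex.continuous_re.comp_continuousOn (continuousOn_smul hR hRr (hDg e) hs hs1)))
  have h0 := ibp_j hR hQ hc j
  rw [h0]
  congr 1
  refine integral_congr_ae (Eventually.of_forall fun x => ?_)
  show kn 3 R x • _ = kn 3 R x • _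
  congr 1
  rw [hQ'e, hQ'e, map_smul, map_smul]
  have h6 : fderiv ℂ g (s • x) (ej j) = G (s • x) := rfl
  rw [h6]
  have h7 : ((‖G (s • x)‖ ^ 2 : ℝ) : ℂ) = G (s • x) * (((G (s • x)).re : ℂ) -
      ((G (s • x)).im : ℂ) * Complex.I) := by
    have h8 : ((‖G (s • x)‖ ^ 2 : ℝ) : ℂ) = G (s • x) * (starRingEnd ℂ) (G (s • x)) := by
      rw [Complex.mul_conj, Complex.normSq_eq_norm_sq]
    rw [h8]
    congr 1
    apply Complex.ext <;> simp
  have h9 : (Complex.I • G (s • x)).re = - (G (s • x)).im := by simp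
  rw [h9]
  push_cast at h7 ⊢
  rw [h7]
  simp only [smul_eq_mul]
  linear_combination ((P (g (s • x)).re : ℂ) * s * (fderiv ℂ G (s • x)) (ej j)) * Complex.I_sq

theorem step (hR : 0 ≤ R) (hRr : R < r) (hg : AnalyticOnNhd ℂ g (ball 0 r))
    (hP : ∀ t, HasDerivAt P (P' t) t) (hP' : Continuous P') {s : ℝ} (hs : 0 ≤ s) (hs1 : s ≤ 1) :
    ∫ x, kn 2 R x • ((P (g (s • x)).re : ℂ) * fderiv ℂ g (s • x) x) =
      ((s / 6 * ∫ x, kn 3 R x * (P' (g (s • x)).re *
        ∑ j, ‖fderiv ℂ g (s • x) (ej j)‖ ^ 2) : ℝ) : ℂ) := by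
  have hPc : Continuous P := continuous_iff_continuousAt.2 fun t => (hP t).continuousAt
  have hDg : ∀ e, ContinuousOn (fun y => fderiv ℂ g y e) (ball 0 r) := fun e y hy =>
    ((((ContinuousLinearMap.apply ℂ ℂ e).analyticAt _).comp
      (hg y hy).fderiv).continuousAt).continuousWithinAt
  have hre : ContinuousOn (fun x : Fin d → ℂ => (g (s • x)).re) (Bq d R) :=
    Complex.continuous_re.comp_continuousOn (continuousOn_smul hR hRr hg.continuousOn hs hs1)
  have h1 : ∀ j : Fin d, Integrable fun x => kn 2 R x •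
      (x j * ((P (g (s • x)).re : ℂ) * fderiv ℂ g (s • x) (ej j))) := by
    intro j
    refine integrable_kn (by norm_num) hR ?_
    exact (continuous_apply j).continuousOn.mul
      ((Complex.continuous_ofReal.comp_continuousOn (hPc.comp_continuousOn hre)).mul
        (continuousOn_smul hR hRr (hDg (ej j)) hs hs1))
  have h2 : ∀ j : Fin d, Integrable fun x => kn 3 R x •
      (P' (g (s • x)).re * ‖fderiv ℂ g (s • x) (ej j)‖ ^ 2) := by
    intro j
    refine integrable_kn (by norm_num) hR ?_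
    exact (hP'.comp_continuousOn hre).mul
      ((continuousOn_smul hR hRr (hDg (ej j)) hs hs1).norm.pow 2)
  have h3 : ∫ x, kn 2 R x • ((P (g (s • x)).re : ℂ) * fderiv ℂ g (s • x) x) =
      ∑ j, ∫ x, kn 2 R x • (x j * ((P (g (s • x)).re : ℂ) * fderiv ℂ g (s • x) (ej j))) := by
    rw [← integral_finsetSum _ fun j _ => h1 j]
    refine integral_congr_ae (Eventually.of_forall fun x => ?_)
    beta_reduce
    rw [fderiv_eq_sum, Finset.mul_sum, Finset.smul_sum]
    refine Finset.sum_congr rfl fun j _ => ?_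
    congr 1
    ring
  have h4 : ∫ x, kn 3 R x * (P' (g (s • x)).re * ∑ j, ‖fderiv ℂ g (s • x) (ej j)‖ ^ 2) =
      ∑ j, ∫ x, kn 3 R x • (P' (g (s • x)).re * ‖fderiv ℂ g (s • x) (ej j)‖ ^ 2) := by
    rw [← integral_finsetSum _ fun j _ => h2 j]
    refine integral_congr_ae (Eventually.of_forall fun x => ?_)
    beta_reduce
    rw [Finset.mul_sum, Finset.mul_sum]
    rfl
  rw [h3, h4, Finset.mul_sum, Complex.ofReal_sum]
  refine Finset.sum_congr rfl fun j _ => ?_
  rw [step_j hR hRr hg hP hP' hs hs1 j]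
  have h5 : ∫ x, kn 3 R x •
        ((s * (P' (g (s • x)).re * ‖fderiv ℂ g (s • x) (ej j)‖ ^ 2) : ℝ) : ℂ) =
      ((s * ∫ x, kn 3 R x • (P' (g (s • x)).re * ‖fderiv ℂ g (s • x) (ej j)‖ ^ 2) : ℝ) : ℂ) := by
    rw [← integral_const_mul, ← integral_complex_ofReal]
    refine integral_congr_ae (Eventually.of_forall fun x => ?_)
    simp only [Complex.real_smul, smul_eq_mul]
    push_cast
    ring
  rw [h5, Complex.real_smul, ← Complex.ofReal_mul]
  congr 1
  ring

end Vale.Agent.P281.H165.L
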